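import Vale.Agent.P363.R.B5.Flux

/-! Perturbative positivity of the flux and two-sided bounds. -/

namespace Vale.Agent.P363.B5

open MeasureTheory Set Filter Topology
open scoped ContDiff Interval

noncomputable section

/-- The weight used to average the flux over `[R, R+1]`. -/
def th (R t : ℝ) : ℝ := 6 * (t - R) * (R + 1 - t)

/-- Its derivative. -/
def th1 (R t : ℝ) : ℝ := 6 * (2 * R + 1 - 2 * t)

theorem hasDerivAt_th (R t : ℝ) : HasDerivAt (th R) (th1 R t) t := by
  have h := (((hasDerivAt_id t).sub_const R).const_mul 6).mul ((hasDerivAt_id t).const_sub (R + 1))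
  refine h.congr_deriv ?_
  simp only [th1, id]
  ring

theorem continuous_th (R : ℝ) : Continuous (th R) := by unfold th; fun_prop

theorem continuous_th1 (R : ℝ) : Continuous (th1 R) := by unfold th1; fun_prop

theorem th_nonneg {R t : ℝ} (h : t ∈ Icc R (R + 1)) : 0 ≤ th R t := by
  have h1 : 0 ≤ t - R := by linarith [h.1]
  have h2 : 0 ≤ R + 1 - t := by linarith [h.2]
  unfold th
  positivity

theorem integral_th (R : ℝ) : ∫ t in R..R + 1, th R t = 1 := by
  have h : ∀ t ∈ uIcc R (R + 1), HasDerivAt (fun t => 3 * (t - R) ^ 2 - 2 * (t - R) ^ 3) (th R t) t := by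
    intro t _
    have h1 := (((hasDerivAt_id t).sub_const R).pow 2).const_mul 3
    have h2 := (((hasDerivAt_id t).sub_const R).pow 3).const_mul 2
    refine (h1.sub h2).congr_deriv ?_
    simp only [th, id]
    norm_num
    ring
  rw [intervalIntegral.integral_eq_sub_of_hasDerivAt h ((continuous_th R).intervalIntegrable _ _)]
  ring

/-- The density whose integral against `w` gives the averaged flux. -/
def Pf (R : ℝ) (p : ℝ × ℝ × ℝ) : ℝ :=
  2 * th R p.2.2 * Xf1 p.1 p.2.1 p.2.2 + th1 R p.2.2 * Xf p.1 p.2.1 p.2.2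

theorem continuousOn_Pf (R : ℝ) : ContinuousOn (Pf R) {p | 0 < p.2.2} := by
  unfold Pf Xf1 Xf th th1
  have h1 : ContinuousOn (fun p : ℝ × ℝ × ℝ => Real.log p.2.2) {p | 0 < p.2.2} :=
    ContinuousOn.log (by fun_prop) fun p hp => ne_of_gt hp
  have h2 : ContinuousOn (fun p : ℝ × ℝ × ℝ => p.2.1 / p.2.2) {p | 0 < p.2.2} :=
    ContinuousOn.div (by fun_prop) (by fun_prop) fun p hp => ne_of_gt hp
  fun_prop

theorem avg_flux {R : ℝ} (hR : 0 < R) (k s : ℝ) {w w1 : ℝ → ℝ}
    (hd : ∀ r ∈ Icc R (R + 1), HasDerivAt w (w1 r) r) (hw1 : ContinuousOn w1 (Icc R (R + 1))) :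
    ∫ t in R..R + 1, th R t * flux k s w w1 t = ∫ t in R..R + 1, w t * Pf R (k, s, t) := by
  have hRR : R ≤ R + 1 := by linarith
  have hu : uIcc R (R + 1) = Icc R (R + 1) := uIcc_of_le hRR
  have hsub0 : Icc R (R + 1) ⊆ Ioi (0 : ℝ) := fun x hx => hR.trans_le hx.1
  have cX := (continuousOn_Xf k s).mono hsub0
  have cX1 := (continuousOn_Xf1 k s).mono hsub0
  have ct := (continuous_th R).continuousOn (s := Icc R (R + 1))
  have ct1 := (continuous_th1 R).continuousOn (s := Icc R (R + 1))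
  have cw : ContinuousOn w (Icc R (R + 1)) := fun r hr => (hd r hr).continuousAt.continuousWithinAt
  have c1 : ContinuousOn (fun t => w t * Pf R (k, s, t)) (Icc R (R + 1)) := by
    unfold Pf
    exact cw.mul (((continuousOn_const.mul ct).mul cX1).add (ct1.mul cX))
  have c2 : ContinuousOn (fun t => th R t * flux k s w w1 t) (Icc R (R + 1)) := by
    unfold flux
    exact ct.mul ((cw.mul cX1).sub (hw1.mul cX))
  have key : ∫ t in R..R + 1, (w t * Pf R (k, s, t) - th R t * flux k s w w1 t) = 0 := by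
    have h := intervalIntegral.integral_eq_sub_of_hasDerivAt
      (f := fun t => (th R t * Xf k s t) * w t)
      (f' := fun t => w t * Pf R (k, s, t) - th R t * flux k s w w1 t) (a := R) (b := R + 1)
      (fun t ht => by
        rw [hu] at ht
        have h1 := ((hasDerivAt_th R t).mul (hasDerivAt_Xf k s (hsub0 ht))).mul (hd t ht)
        refine h1.congr_deriv ?_
        simp only [Pf, flux, Pi.mul_apply]
        ring)
      ((c1.sub c2).mono hu.le).intervalIntegrable
    rw [h]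
    simp [th]
  rw [intervalIntegral.integral_sub (c1.mono hu.le).intervalIntegrable
    (c2.mono hu.le).intervalIntegrable] at key
  linarith

theorem FluxData.near {k s a C K : ℝ} {w w1 h ρ N : ℝ → ℝ} (D : FluxData k s a C K w w1 h ρ N)
    {δ R r : ℝ} (hδ : 0 < δ) (haR : a < R) (hRr : R ≤ r) :
    |flux k s w w1 r - ∫ t in R..R + 1, w t * Pf R (k, s, t)| ≤
      (6 + C) / 2 * (δ * (2 * R ^ (-(1 / 2) : ℝ)) + δ⁻¹ * K) := by
  have ha := D.ha1
  have hR0 : 0 < R := by linarith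
  have hRR : R ≤ R + 1 := by linarith
  set B := (6 + C) / 2 * (δ * (2 * R ^ (-(1 / 2) : ℝ)) + δ⁻¹ * K) with hB
  have hosc : ∀ t, R ≤ t → |flux k s w w1 r - flux k s w w1 t| ≤ B := by
    intro t ht
    rcases le_total t r with h1 | h1
    · exact D.osc hδ haR ht h1
    · rw [abs_sub_comm]
      exact D.osc hδ haR hRr h1
  have hsub : Icc R (R + 1) ⊆ Ioi a := fun x hx => haR.trans_le hx.1
  rw [← avg_flux hR0 k s (fun t ht => D.hd t (hsub ht)) (D.hw1.mono hsub)]
  have hu : uIcc R (R + 1) = Icc R (R + 1) := uIcc_of_le hRR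
  have hsub0 : Icc R (R + 1) ⊆ Ioi (0 : ℝ) := fun x hx => hR0.trans_le hx.1
  have cF : ContinuousOn (flux k s w w1) (Icc R (R + 1)) := by
    unfold flux
    exact ((D.toIsSol.continuousOn.mono hsub).mul ((continuousOn_Xf1 k s).mono hsub0)).sub
      ((D.hw1.mono hsub).mul ((continuousOn_Xf k s).mono hsub0))
  have ct := (continuous_th R).continuousOn (s := Icc R (R + 1))
  have e1 : flux k s w w1 r = ∫ t in R..R + 1, th R t * flux k s w w1 r := by
    rw [intervalIntegral.integral_mul_const, integral_th, one_mul]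
  have e2 : flux k s w w1 r - ∫ t in R..R + 1, th R t * flux k s w w1 t
      = ∫ t in R..R + 1, (th R t * flux k s w w1 r - th R t * flux k s w w1 t) := by
    rw [intervalIntegral.integral_sub, ← e1]
    · exact ((continuous_th R).mul continuous_const).intervalIntegrable _ _
    · exact ((ct.mul cF).mono hu.le).intervalIntegrable
  rw [e2]
  have h1 := intervalIntegral.norm_integral_le_of_norm_le (μ := volume) (a := R) (b := R + 1)
    (f := fun t => th R t * flux k s w w1 r - th R t * flux k s w w1 t)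
    (g := fun t => th R t * B) hRR
    (Eventually.of_forall fun t ht => by
      have ht' : t ∈ Icc R (R + 1) := ⟨ht.1.le, ht.2⟩
      rw [← mul_sub, Real.norm_eq_abs, abs_mul, abs_of_nonneg (th_nonneg ht')]
      exact mul_le_mul_of_nonneg_left (hosc t ht'.1) (th_nonneg ht'))
    (((continuous_th R).mul continuous_const).intervalIntegrable _ _)
  rw [intervalIntegral.integral_mul_const, integral_th, one_mul] at h1
  exact h1

/-- The unperturbed radial function `κ t² e^{-t/2}`. -/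
def w0f (κ t : ℝ) : ℝ := κ * t ^ 2 * Real.exp (-t / 2)

def w0f1 (κ t : ℝ) : ℝ := κ * (2 * t - t ^ 2 / 2) * Real.exp (-t / 2)

theorem hasDerivAt_w0f (κ t : ℝ) : HasDerivAt (w0f κ) (w0f1 κ t) t := by
  have h1 := (((hasDerivAt_id t).pow 2).const_mul κ).mul ((hasDerivAt_id t).neg.div_const 2).exp
  refine h1.congr_deriv ?_
  simp only [w0f1, id]
  norm_num
  ring

theorem continuous_w0f (κ : ℝ) : Continuous (w0f κ) := by unfold w0f; fun_prop

theorem flux_w0f (κ : ℝ) {t : ℝ} (ht : 0 < t) :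
    flux (1 / 2) 2 (w0f κ) (w0f1 κ) t = κ * (1 - 4 / t) := by
  have e1 : Xf (1 / 2) 2 t = Real.exp (t / 2) / t ^ 2 := by
    have e2 : t ^ 2 = Real.exp (2 * Real.log t) := by
      rw [mul_comm, Real.exp_mul, Real.exp_log ht]
      norm_cast
    rw [e2, Xf, ← Real.exp_sub]
    ring_nf
  have e3 : Real.exp (-(t / 2)) * Real.exp (t / 2) = 1 := by
    rw [← Real.exp_add, neg_add_cancel, Real.exp_zero]
  simp only [flux, w0f, w0f1, Xf1, e1, neg_div]
  field_simp
  linear_combination (2 * κ * (t - 4)) * e3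

theorem avg_w0f {κ R : ℝ} (hκ : 0 ≤ κ) (hR : 8 ≤ R) :
    κ / 2 ≤ ∫ t in R..R + 1, w0f κ t * Pf R (1 / 2, 2, t) := by
  have hR0 : 0 < R := by linarith
  have hRR : R ≤ R + 1 := by linarith
  have hc : Continuous (w0f1 κ) := by unfold w0f1; fun_prop
  rw [← avg_flux hR0 (1 / 2) 2 (fun t _ => hasDerivAt_w0f κ t) hc.continuousOn]
  have e1 : κ / 2 = ∫ t in R..R + 1, th R t * (κ / 2) := by
    rw [intervalIntegral.integral_mul_const, integral_th, one_mul]
  rw [e1]
  have hu : uIcc R (R + 1) = Icc R (R + 1) := uIcc_of_le hRR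
  refine intervalIntegral.integral_mono_on hRR
    (((continuous_th R).mul continuous_const).intervalIntegrable _ _) ?_ ?_
  · refine ContinuousOn.intervalIntegrable ?_
    rw [hu]
    unfold flux
    have hsub0 : Icc R (R + 1) ⊆ Ioi (0 : ℝ) := fun x hx => hR0.trans_le hx.1
    exact (continuous_th R).continuousOn.mul
      (((continuous_w0f κ).continuousOn.mul ((continuousOn_Xf1 _ _).mono hsub0)).sub
      (hc.continuousOn.mul ((continuousOn_Xf _ _).mono hsub0)))
  · intro t ht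
    have ht0 : 0 < t := hR0.trans_le ht.1
    rw [flux_w0f κ ht0]
    refine mul_le_mul_of_nonneg_left ?_ (th_nonneg ht)
    have : 4 / t ≤ 1 / 2 := by
      rw [div_le_iff₀ ht0]
      linarith [ht.1]
    nlinarith

/-- Convergence of the averaged flux. -/
theorem tendsto_avg {ι : Type*} {l : Filter ι} {k s : ι → ℝ} {κ R : ℝ} (hR : 0 < R)
    (hk : Tendsto k l (𝓝 (1 / 2))) (hs : Tendsto s l (𝓝 2)) {w : ι → ℝ → ℝ}
    (hw : ∀ᶠ j in l, ContinuousOn (w j) (Icc R (R + 1)))
    (hclose : Tendsto (fun j => ∫ t in R..R + 1, |w j t - w0f κ t|) l (𝓝 0)) :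
    Tendsto (fun j => ∫ t in R..R + 1, w j t * Pf R (k j, s j, t)) l
      (𝓝 (∫ t in R..R + 1, w0f κ t * Pf R (1 / 2, 2, t))) := by
  have hRR : R ≤ R + 1 := by linarith
  have hu : uIcc R (R + 1) = Icc R (R + 1) := uIcc_of_le hRR
  set Kc : Set (ℝ × ℝ × ℝ) := Icc 0 1 ×ˢ (Icc 1 3 ×ˢ Icc R (R + 1)) with hKc
  have hKcomp : IsCompact Kc := isCompact_Icc.prod (isCompact_Icc.prod isCompact_Icc)
  have hcont : ContinuousOn (Pf R) Kc := (continuousOn_Pf R).mono fun p hp => hR.trans_le hp.2.2.1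
  obtain ⟨B, hB⟩ := hKcomp.exists_bound_of_continuousOn hcont
  have huc := hKcomp.uniformContinuousOn_of_continuous hcont
  rw [Metric.uniformContinuousOn_iff] at huc
  have hB0 : 0 ≤ B := (norm_nonneg _).trans (hB (1 / 2, 2, R) ⟨⟨by norm_num, by norm_num⟩,
    ⟨by norm_num, by norm_num⟩, ⟨le_rfl, hRR⟩⟩)
  set W := ∫ t in R..R + 1, |w0f κ t| with hW
  have hW0 : 0 ≤ W := intervalIntegral.integral_nonneg hRR fun t _ => abs_nonneg _
  rw [Metric.tendsto_nhds]
  intro ε hε
  obtain ⟨δ, hδ, hδ'⟩ := huc (ε / (2 * (W + 1))) (by positivity)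
  have hk' : ∀ᶠ j in l, dist (k j) (1 / 2) < min δ (1 / 2) :=
    (Metric.tendsto_nhds.1 hk) _ (lt_min hδ (by norm_num))
  have hs' : ∀ᶠ j in l, dist (s j) 2 < min δ 1 :=
    (Metric.tendsto_nhds.1 hs) _ (lt_min hδ (by norm_num))
  have hc' : ∀ᶠ j in l, dist (∫ t in R..R + 1, |w j t - w0f κ t|) 0 < ε / (2 * (B + 1)) :=
    (Metric.tendsto_nhds.1 hclose) _ (by positivity)
  filter_upwards [hk', hs', hc', hw] with j h1 h2 h3 h4
  have m1 : k j ∈ Icc (0 : ℝ) 1 := by
    have := (lt_min_iff.1 h1).2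
    rw [Real.dist_eq, abs_lt] at this
    constructor <;> linarith
  have m2 : s j ∈ Icc (1 : ℝ) 3 := by
    have := (lt_min_iff.1 h2).2
    rw [Real.dist_eq, abs_lt] at this
    constructor <;> linarith
  have cP : ContinuousOn (fun t => Pf R (k j, s j, t)) (Icc R (R + 1)) :=
    hcont.comp (by fun_prop) fun t ht => ⟨m1, m2, ht⟩
  have cP0 : ContinuousOn (fun t => Pf R (1 / 2, 2, t)) (Icc R (R + 1)) :=
    hcont.comp (by fun_prop) fun t ht => ⟨⟨by norm_num, by norm_num⟩,
      ⟨by norm_num, by norm_num⟩, ht⟩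
  have cw0 := (continuous_w0f κ).continuousOn (s := Icc R (R + 1))
  have i1 : IntervalIntegrable (fun t => w j t * Pf R (k j, s j, t)) volume R (R + 1) :=
    ((h4.mul cP).mono hu.le).intervalIntegrable
  have i2 : IntervalIntegrable (fun t => w0f κ t * Pf R (1 / 2, 2, t)) volume R (R + 1) :=
    ((cw0.mul cP0).mono hu.le).intervalIntegrable
  rw [dist_eq_norm, ← intervalIntegral.integral_sub i1 i2]
  have i3 : IntervalIntegrable (fun t => |w j t - w0f κ t|) volume R (R + 1) :=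
    ((h4.sub cw0).abs.mono hu.le).intervalIntegrable
  have i4 : IntervalIntegrable (fun t => |w0f κ t|) volume R (R + 1) :=
    (cw0.abs.mono hu.le).intervalIntegrable
  have hle := intervalIntegral.norm_integral_le_of_norm_le (μ := volume) (a := R) (b := R + 1)
    (f := fun t => w j t * Pf R (k j, s j, t) - w0f κ t * Pf R (1 / 2, 2, t))
    (g := fun t => B * |w j t - w0f κ t| + ε / (2 * (W + 1)) * |w0f κ t|) hRR
    (Eventually.of_forall fun t ht => by
      have ht' : t ∈ Icc R (R + 1) := ⟨ht.1.le, ht.2⟩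
      have e : w j t * Pf R (k j, s j, t) - w0f κ t * Pf R (1 / 2, 2, t)
          = Pf R (k j, s j, t) * (w j t - w0f κ t)
            + (Pf R (k j, s j, t) - Pf R (1 / 2, 2, t)) * w0f κ t := by ring
      rw [e]
      have b1 : |Pf R (k j, s j, t)| ≤ B := hB _ ⟨m1, m2, ht'⟩
      have b2 : |Pf R (k j, s j, t) - Pf R (1 / 2, 2, t)| ≤ ε / (2 * (W + 1)) := by
        have := hδ' (k j, s j, t) ⟨m1, m2, ht'⟩ (1 / 2, 2, t) ⟨⟨by norm_num, by norm_num⟩,
          ⟨by norm_num, by norm_num⟩, ht'⟩ (by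
            rw [Prod.dist_eq, Prod.dist_eq, dist_self]
            exact max_lt (lt_min_iff.1 h1).1 (max_lt (lt_min_iff.1 h2).1 hδ))
        rw [Real.dist_eq] at this
        exact this.le
      calc ‖_‖ ≤ |Pf R (k j, s j, t)| * |w j t - w0f κ t|
            + |Pf R (k j, s j, t) - Pf R (1 / 2, 2, t)| * |w0f κ t| := by
            rw [Real.norm_eq_abs]
            refine (abs_add_le _ _).trans ?_
            rw [abs_mul, abs_mul]
        _ ≤ _ := by gcongr)
    ((i3.const_mul B).add (i4.const_mul _))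
  refine hle.trans_lt ?_
  rw [intervalIntegral.integral_add (i3.const_mul B) (i4.const_mul _),
    intervalIntegral.integral_const_mul, intervalIntegral.integral_const_mul, ← hW]
  have hI0 : 0 ≤ ∫ t in R..R + 1, |w j t - w0f κ t| :=
    intervalIntegral.integral_nonneg hRR fun t _ => abs_nonneg _
  rw [Real.dist_eq, sub_zero, abs_of_nonneg hI0] at h3
  have t1 : B * ∫ t in R..R + 1, |w j t - w0f κ t| ≤ (B + 1) * ∫ t in R..R + 1, |w j t - w0f κ t| := by
    nlinarith
  have t2 : (B + 1) * ∫ t in R..R + 1, |w j t - w0f κ t| < ε / 2 := by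
    have : (B + 1) * (ε / (2 * (B + 1))) = ε / 2 := by field_simp
    rw [← this]
    exact mul_lt_mul_of_pos_left h3 (by linarith)
  have t3 : ε / (2 * (W + 1)) * W ≤ ε / 2 := by
    have : ε / (2 * (W + 1)) * (W + 1) = ε / 2 := by field_simp
    rw [← this]
    exact mul_le_mul_of_nonneg_left (by linarith) (by positivity)
  linarith

/-- Two-sided bounds, uniformly positive flux. -/
theorem two_sided_eventually {ι : Type*} {l : Filter ι} {k s : ι → ℝ} {a C K κ : ℝ}
    (hC : 0 ≤ C) (hK : 0 ≤ K)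
    (hκ : 0 < κ) (hk : Tendsto k l (𝓝 (1 / 2))) (hs : Tendsto s l (𝓝 2))
    {w w1 h ρ N : ι → ℝ → ℝ}
    (D : ∀ᶠ j in l, FluxData (k j) (s j) a C K (w j) (w1 j) (h j) (ρ j) (N j))
    (hclose : ∀ R, a < R → Tendsto (fun j => ∫ t in R..R + 1, |w j t - w0f κ t|) l (𝓝 0)) :
    ∃ R, a < R ∧ ∀ᶠ j in l, ∃ c1 C1, 0 < c1 ∧ ∀ r, R ≤ r →
      c1 * (Xf (k j) (s j) r)⁻¹ ≤ w j r ∧ |w j r| ≤ C1 * (Xf (k j) (s j) r)⁻¹ := by
  -- choose δ, then R
  set δ := 8 * (6 + C) * (K + 1) / κ with hδdef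
  have hδ : 0 < δ := by positivity
  have hlim : Tendsto (fun R : ℝ => (6 + C) / 2 * (δ * (2 * R ^ (-(1 / 2) : ℝ)))) atTop (𝓝 0) := by
    have h1 : Tendsto (fun R : ℝ => R ^ (-(1 / 2) : ℝ)) atTop (𝓝 0) :=
      tendsto_rpow_neg_atTop (by norm_num)
    simpa using ((h1.const_mul 2).const_mul δ).const_mul ((6 + C) / 2)
  have hev : ∀ᶠ R in atTop, (6 + C) / 2 * (δ * (2 * R ^ (-(1 / 2) : ℝ))) < κ / 16 :=
    (tendsto_order.1 hlim).2 _ (by positivity)
  obtain ⟨R, hR1, hR2, hR3⟩ := (hev.and ((eventually_gt_atTop a).and (eventually_ge_atTop 16))).exists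
  have hR0 : 0 < R := by linarith
  refine ⟨R, hR2, ?_⟩
  have hosc : (6 + C) / 2 * (δ * (2 * R ^ (-(1 / 2) : ℝ)) + δ⁻¹ * K) ≤ κ / 8 := by
    have e : (6 + C) / 2 * (δ⁻¹ * K) ≤ κ / 16 := by
      rw [hδdef]
      have : (6 + C) / 2 * ((8 * (6 + C) * (K + 1) / κ)⁻¹ * K) = κ / 16 * (K / (K + 1)) := by
        field_simp
        ring
      rw [this]
      have : K / (K + 1) ≤ 1 := by
        rw [div_le_one (by linarith)]
        linarith
      nlinarith
    calc _ = (6 + C) / 2 * (δ * (2 * R ^ (-(1 / 2) : ℝ))) + (6 + C) / 2 * (δ⁻¹ * K) := by ring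
      _ ≤ κ / 16 + κ / 16 := add_le_add hR1.le e
      _ = κ / 8 := by ring
  have hA := tendsto_avg (κ := κ) hR0 hk hs (w := w) (by
      filter_upwards [D] with j hj
      exact hj.toIsSol.continuousOn.mono fun x hx => hR2.trans_le hx.1) (hclose R hR2)
  have hA0 := avg_w0f hκ.le (by linarith : (8 : ℝ) ≤ R)
  set A0 := ∫ t in R..R + 1, w0f κ t * Pf R (1 / 2, 2, t) with hA0def
  have hk2 : ∀ᶠ j in l, 2 * s j / R ≤ k j := by
    have h1 : Tendsto (fun j => 2 * s j / R) l (𝓝 (2 * 2 / R)) := (hs.const_mul 2).div_const R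
    have h2 : 2 * 2 / R < 1 / 2 := by
      rw [div_lt_iff₀ hR0]
      linarith
    filter_upwards [h1.eventually_lt hk h2] with j hj using hj.le
  filter_upwards [D, hk2, Metric.tendsto_nhds.1 hA (κ / 8) (by positivity)] with j Dj hj2 hj3
  rw [Real.dist_eq, abs_lt] at hj3
  have hF : ∀ r, R ≤ r → κ / 4 ≤ flux (k j) (s j) (w j) (w1 j) r ∧
      |flux (k j) (s j) (w j) (w1 j) r| ≤ A0 + κ := by
    intro r hr
    have h1 := (Dj.near hδ hR2 hr).trans hosc
    rw [abs_le] at h1
    refine ⟨by linarith, ?_⟩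
    rw [abs_le]
    constructor <;> linarith
  have hkj := Dj.hk
  refine ⟨κ / 4 / (2 * k j), (A0 + κ) / k j, by positivity, fun r hr => ?_⟩
  have hX := Xf_pos (k j) (s j) r
  have hY : Yf (k j) (s j) r * Xf (k j) (s j) r = (Xf (k j) (s j) r)⁻¹ := by
    rw [Yf]
    field_simp
  have hlow := Dj.lower hR2 hj2 (by positivity : (0 : ℝ) ≤ κ / 4) (fun r hr => (hF r hr).2)
    (fun r hr => (hF r hr).1) r hr
  have hup := Dj.upper hR2 hj2 (fun r hr => (hF r hr).2) r hr
  rw [le_div_iff₀ hX, mul_assoc, hY] at hlow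
  rw [abs_div, abs_of_pos hX, div_le_iff₀ hX, mul_assoc, hY] at hup
  exact ⟨hlow, hup⟩

/-- The upper bound alone, no closeness needed. -/
theorem FluxData.upper' {k s a C K : ℝ} {w w1 h ρ N : ℝ → ℝ}
    (D : FluxData k s a C K w w1 h ρ N) {R : ℝ} (haR : a < R) (hR : 2 * s / R ≤ k) :
    ∃ C1, ∀ r, R ≤ r → |w r| ≤ C1 * (Xf k s r)⁻¹ := by
  set B := (6 + C) / 2 * ((1 : ℝ) * (2 * R ^ (-(1 / 2) : ℝ)) + (1 : ℝ)⁻¹ * K) with hB
  have hF : ∀ r, R ≤ r → |flux k s w w1 r| ≤ |flux k s w w1 R| + B := by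
    intro r hr
    have h1 := D.osc one_pos haR le_rfl hr
    rw [← hB] at h1
    have h2 : flux k s w w1 r = (flux k s w w1 r - flux k s w w1 R) + flux k s w w1 R := by ring
    rw [h2]
    exact (abs_add_le _ _).trans (by linarith)
  refine ⟨(|flux k s w w1 R| + B) / k, fun r hr => ?_⟩
  have hX := Xf_pos k s r
  have hY : Yf k s r * Xf k s r = (Xf k s r)⁻¹ := by
    rw [Yf]
    field_simp
  have hup := D.upper haR hR hF r hr
  rw [abs_div, abs_of_pos hX, div_le_iff₀ hX, mul_assoc, hY] at hup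
  exact hup

end

end Vale.Agent.P363.B5
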