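import Vale.Agent.P363.R.B5.ODE
import Vale.Agent.P363.R.Sob.Basic

/-! Test functions `φ(‖x‖) x₂ / ‖x‖²` on `R3` and their Laplacian. -/

namespace Vale.Agent.P363.B5

open MeasureTheory Set Filter Topology Metric
open Vale.Agent.P363.Stmt
open Vale.Agent.P363.R.Sob
open scoped ContDiff

noncomputable section

/-- The `k`-th unit vector. -/
def ev (k : Fin 3) : R3 := EuclideanSpace.single k (1 : ℝ)

/-- Laplacian of a smooth function on `R3`, written with Fréchet derivatives. -/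
def lapT (ζ : R3 → ℝ) (x : R3) : ℝ := ∑ k, fderiv ℝ (fun y => fderiv ℝ ζ y (ev k)) x (ev k)

/-- The profile `χ(t) = φ(√t) / t`. -/
def prof (φ : ℝ → ℝ) (t : ℝ) : ℝ := φ (Real.sqrt t) / t

/-- The test function. -/
def zet (φ : ℝ → ℝ) (x : R3) : ℝ := prof φ (‖x‖ ^ 2) * x 2

theorem zet_eq (φ : ℝ → ℝ) (x : R3) : zet φ x = φ ‖x‖ / ‖x‖ ^ 2 * x 2 := by
  simp only [zet, prof, Real.sqrt_sq (norm_nonneg x)]

theorem prof_contDiff {a : ℝ} (ha : 0 ≤ a) {φ : ℝ → ℝ} (hφ : TestOn a φ) :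
    ContDiff ℝ ∞ (prof φ) := by
  obtain ⟨c, d, hac, hcd, hz⟩ := hφ.exists_Ioo
  have hc0 : 0 < c := ha.trans_lt hac
  rw [contDiff_iff_contDiffAt]
  intro t
  rcases lt_or_ge t (c ^ 2) with h | h
  · have h1 : prof φ =ᶠ[𝓝 t] fun _ => 0 := by
      filter_upwards [Iio_mem_nhds h] with u hu
      have h2 : Real.sqrt u < c := by
        rw [Real.sqrt_lt' hc0]
        exact hu
      simp only [prof]
      rw [hz _ (fun h' => absurd h'.1 (not_lt.2 h2.le)), zero_div]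
    exact (contDiffAt_const (c := (0 : ℝ))).congr_of_eventuallyEq h1
  · have ht : t ≠ 0 := by
      have : 0 < c ^ 2 := by positivity
      linarith
    have h1 : ContDiffAt ℝ ∞ (fun u => φ (Real.sqrt u)) t :=
      (hφ.smooth.contDiffAt).comp t (Real.contDiffAt_sqrt ht)
    exact h1.div contDiffAt_id ht

theorem prof_zero {c d : ℝ} {φ : ℝ → ℝ} (hc : 0 < c) (hd : 0 < d)
    (hz : ∀ x, x ∉ Ioo c d → φ x = 0) {t : ℝ} (ht : t ∉ Ioo (c ^ 2) (d ^ 2)) : prof φ t = 0 := by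
  simp only [prof]
  rw [hz, zero_div]
  intro h
  apply ht
  have h0 : 0 < t := by
    by_contra h'
    rw [Real.sqrt_eq_zero'.2 (not_lt.1 h')] at h
    exact absurd h.1 (not_lt.2 hc.le)
  constructor
  · exact (Real.lt_sqrt hc.le).1 h.1
  · exact (Real.sqrt_lt' hd).1 h.2

/-- the second derivative of `φ` in terms of the profile -/
theorem phi_deriv2 {a : ℝ} (ha : 0 ≤ a) {φ : ℝ → ℝ} (hφ : TestOn a φ) {r : ℝ} (hr : 0 < r) :
    deriv (deriv φ) r = 2 * prof φ (r ^ 2) + 10 * r ^ 2 * deriv (prof φ) (r ^ 2)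
      + 4 * r ^ 4 * deriv (deriv (prof φ)) (r ^ 2) := by
  have hs := prof_contDiff ha hφ
  have hs1 : ContDiff ℝ ∞ (deriv (prof φ)) := (contDiff_infty_iff_deriv.1 hs).2
  have d1 : ∀ t, HasDerivAt (prof φ) (deriv (prof φ) t) t := fun t =>
    (hs.differentiable (by simp) t).hasDerivAt
  have d2 : ∀ t, HasDerivAt (deriv (prof φ)) (deriv (deriv (prof φ)) t) t := fun t =>
    (hs1.differentiable (by simp) t).hasDerivAt
  have sq : ∀ x : ℝ, HasDerivAt (fun y : ℝ => y ^ 2) (2 * x) x := fun x => by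
    simpa using hasDerivAt_pow 2 x
  -- first derivative
  have e0 : ∀ x : ℝ, 0 < x → φ x = x ^ 2 * prof φ (x ^ 2) := by
    intro x hx
    simp only [prof, Real.sqrt_sq hx.le]
    field_simp
  have D1 : ∀ x : ℝ, 0 < x → HasDerivAt φ (2 * x * prof φ (x ^ 2)
      + x ^ 2 * (deriv (prof φ) (x ^ 2) * (2 * x))) x := by
    intro x hx
    have h1 := (sq x).mul ((d1 (x ^ 2)).comp x (sq x))
    refine h1.congr_of_eventuallyEq ?_
    filter_upwards [Ioi_mem_nhds hx] with y hy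
    exact e0 y hy
  have D2 : HasDerivAt (deriv φ) (2 * prof φ (r ^ 2) + 10 * r ^ 2 * deriv (prof φ) (r ^ 2)
      + 4 * r ^ 4 * deriv (deriv (prof φ)) (r ^ 2)) r := by
    have p1 := ((hasDerivAt_id r).const_mul 2).mul ((d1 (r ^ 2)).comp r (sq r))
    have p2 := (sq r).mul (((d2 (r ^ 2)).comp r (sq r)).mul ((hasDerivAt_id r).const_mul 2))
    have p3 := p1.add p2
    have p4 : HasDerivAt (fun x => 2 * x * prof φ (x ^ 2)
      + x ^ 2 * (deriv (prof φ) (x ^ 2) * (2 * x))) (2 * prof φ (r ^ 2)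
      + 10 * r ^ 2 * deriv (prof φ) (r ^ 2) + 4 * r ^ 4 * deriv (deriv (prof φ)) (r ^ 2)) r := by
      refine (p3.congr_deriv ?_).congr_of_eventuallyEq ?_
      · simp only [Function.comp_apply, Pi.mul_apply, id, mul_one]
        ring
      · exact Eventually.of_forall fun x => by
          simp only [Function.comp, id, Pi.add_apply, Pi.mul_apply]
    refine p4.congr_of_eventuallyEq ?_
    filter_upwards [Ioi_mem_nhds hr] with y hy
    exact (D1 y hy).deriv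
  exact D2.deriv

/-- Fréchet derivative of `χ(‖x‖²)`. -/
theorem hasFDerivAt_normsq {χ : ℝ → ℝ} {c : ℝ} {x : R3} (h : HasDerivAt χ c (‖x‖ ^ 2)) :
    HasFDerivAt (fun y : R3 => χ (‖y‖ ^ 2)) (c • (2 • (innerSL ℝ) x)) x := by
  have h1 := (hasStrictFDerivAt_norm_sq x).hasFDerivAt
  exact h.comp_hasFDerivAt x h1

theorem inner_ev (x : R3) (k : Fin 3) : (innerSL ℝ x) (ev k) = x k := by
  simp [ev, innerSL_apply_apply, EuclideanSpace.inner_single_right]

theorem hasFDerivAt_coord (k : Fin 3) (x : R3) :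
    HasFDerivAt (fun y : R3 => y k) (EuclideanSpace.proj k : R3 →L[ℝ] ℝ) x :=
  (EuclideanSpace.proj k : R3 →L[ℝ] ℝ).hasFDerivAt

theorem proj_ev (j k : Fin 3) : (EuclideanSpace.proj j : R3 →L[ℝ] ℝ) (ev k) = if j = k then 1 else 0 := by
  simp [ev]

theorem norm_sq_eq3 (x : R3) : ‖x‖ ^ 2 = x 0 ^ 2 + x 1 ^ 2 + x 2 ^ 2 := by
  rw [EuclideanSpace.norm_sq_eq, Fin.sum_univ_three]
  simp

theorem fderiv_zet {χ : ℝ → ℝ} (hχ : ContDiff ℝ ∞ χ) (x : R3) (k : Fin 3) :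
    fderiv ℝ (fun y : R3 => χ (‖y‖ ^ 2) * y 2) x (ev k) =
      χ (‖x‖ ^ 2) * (if 2 = k then 1 else 0) + x 2 * (deriv χ (‖x‖ ^ 2) * (2 * x k)) := by
  have d1 : HasDerivAt χ (deriv χ (‖x‖ ^ 2)) (‖x‖ ^ 2) :=
    (hχ.differentiable (by simp) _).hasDerivAt
  have h : HasFDerivAt (fun y : R3 => χ (‖y‖ ^ 2) * y 2) _ x :=
    (hasFDerivAt_normsq d1).mul (hasFDerivAt_coord 2 x)
  rw [h.fderiv]
  have := inner_ev x k
  simp only [add_apply, smul_apply, smul_eq_mul, proj_ev, two_smul, this]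
  ring

theorem lapT_zet {χ : ℝ → ℝ} (hχ : ContDiff ℝ ∞ χ) (x : R3) :
    lapT (fun y : R3 => χ (‖y‖ ^ 2) * y 2) x =
      x 2 * (4 * ‖x‖ ^ 2 * deriv (deriv χ) (‖x‖ ^ 2) + 10 * deriv χ (‖x‖ ^ 2)) := by
  have hχ1 : ContDiff ℝ ∞ (deriv χ) := (contDiff_infty_iff_deriv.1 hχ).2
  have d1 : HasDerivAt χ (deriv χ (‖x‖ ^ 2)) (‖x‖ ^ 2) :=
    (hχ.differentiable (by simp) _).hasDerivAt
  have d2 : HasDerivAt (deriv χ) (deriv (deriv χ) (‖x‖ ^ 2)) (‖x‖ ^ 2) :=
    (hχ1.differentiable (by simp) _).hasDerivAt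
  have key : ∀ k : Fin 3, fderiv ℝ (fun y => fderiv ℝ (fun y : R3 => χ (‖y‖ ^ 2) * y 2) y (ev k)) x (ev k)
      = (deriv χ (‖x‖ ^ 2) * (2 * x k)) * (if 2 = k then 1 else 0)
        + ((if 2 = k then 1 else 0) * (deriv χ (‖x‖ ^ 2) * (2 * x k))
        + x 2 * ((deriv (deriv χ) (‖x‖ ^ 2) * (2 * x k)) * (2 * x k)
          + deriv χ (‖x‖ ^ 2) * 2)) := by
    intro k
    have e : (fun y => fderiv ℝ (fun y : R3 => χ (‖y‖ ^ 2) * y 2) y (ev k))
        = fun y => χ (‖y‖ ^ 2) * (if 2 = k then 1 else 0) + y 2 * (deriv χ (‖y‖ ^ 2) * (2 * y k)) := by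
      funext y
      exact fderiv_zet hχ y k
    rw [e]
    have h1 := (hasFDerivAt_normsq d1).mul_const (if 2 = k then (1 : ℝ) else 0)
    have h2 := (hasFDerivAt_normsq d2).mul ((hasFDerivAt_coord k x).const_mul 2)
    have h3 := h1.add ((hasFDerivAt_coord 2 x).mul h2)
    have h4 : HasFDerivAt (fun y : R3 => χ (‖y‖ ^ 2) * (if 2 = k then 1 else 0)
        + y 2 * (deriv χ (‖y‖ ^ 2) * (2 * y k))) _ x := h3
    rw [h4.fderiv]
    have := inner_ev x k
    simp only [add_apply, smul_apply, smul_eq_mul, proj_ev, two_smul, this, Pi.mul_apply]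
    simp only [if_true]
    ring
  simp only [lapT, key, Fin.sum_univ_three]
  rw [norm_sq_eq3]
  simp
  ring

end

end Vale.Agent.P363.B5
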