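import Vale.Agent.P363.R.Top.Defs
import Vale.Agent.P363.R.B5.RadTest
import Vale.Agent.P363.R.B5.FluxLim

/-! Definitions of block B5. -/

namespace Vale.Agent.P363.B5

open MeasureTheory Set Filter Topology Metric
open Vale.Agent.P363.Stmt
open Vale.Agent.P363.R.Sob
open Vale.Agent.P363.R.Top
open scoped ContDiff ComplexConjugate

noncomputable section

/-- `k = √(2(E₄ - E₅))`. -/
def kOf (lam : ℝ) (Φ : ElectronState 4) (Ψ : ElectronState 5) : ℝ :=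
  Real.sqrt (2 * (energy (pot lam) Φ - energy (pot lam) Ψ))

/-- `s = (1 - 4 lam)/k`. -/
def sOf (lam : ℝ) (Φ : ElectronState 4) (Ψ : ElectronState 5) : ℝ :=
  (1 - 4 * lam) / kOf lam Φ Ψ

/-- The multipole remainder `∑ⱼ 1/|x - yⱼ| - 4/|x|`. -/
def mult (x : R3) (y : Conf 4) : ℝ := (∑ j, 1 / ‖x - y j‖) - 4 / ‖x‖

/-- `⟨(∑ⱼ 1/|x - yⱼ| - 4/|x|) Φ, Ψ(x, up; ·)⟩`. -/
def rem (Φ : ElectronState 4) (Ψ : ElectronState 5) (x : R3) : ℂ :=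
  ∑ s, ∫ y : Conf 4, conj (Φ.amp s y) * ((mult x y : ℝ) : ℂ) * Ψ.amp (Fin.cons 0 s) (Fin.cons x y)

/-- two-sided bound of the Dyson amplitude beyond radius `R` (`w = r² G`, `|dyson| = |w| |x₂|/r²`) -/
structure TwoSided (k s c1 C1 R : ℝ) (d : R3 → ℂ) : Prop where
  hc1 : 0 < c1
  hR : 1 ≤ R
  lower : ∀ᵐ x, R ≤ ‖x‖ → c1 * (Xf k s ‖x‖)⁻¹ / ‖x‖ ^ 2 * |x 2| ≤ ‖d x‖
  upper : ∀ᵐ x, R ≤ ‖x‖ → ‖d x‖ ≤ C1 * (Xf k s ‖x‖)⁻¹ / ‖x‖ ^ 2 * |x 2|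

/-- L² smallness of the `Q` part (`density Ψ - 5 |dyson|²`) near far points of the plane `x₂ = 0`. -/
def QSmall (k s C R : ℝ) (d : R3 → ℂ) (n : R3 → ℝ) : Prop :=
  ∀ p : R3, p 2 = 0 → R ≤ ‖p‖ →
    IntegrableOn (fun x => n x - 5 * ‖d x‖ ^ 2) (ball p 2) ∧
      ∫ x in ball p 2, (n x - 5 * ‖d x‖ ^ 2) ≤ C / ‖p‖ ^ 8 * ((Xf k s ‖p‖)⁻¹) ^ 2

end

end Vale.Agent.P363.B5
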