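import Vale.Agent.P363.R.B5.TwoSided
import Vale.Agent.P363.R.B5.h924.Final
import Vale.Agent.P363.R.B5.h924.Mult
import Vale.Agent.P363.H943.Dyson5
import Vale.Agent.P363.H849.Hydrogen
import Vale.Agent.P363.H79.FarKink

/-! B5: the density at infinity. -/

namespace Vale.Agent.P363.B5

open MeasureTheory Set Filter Topology Metric
open Vale.Agent.P363.Stmt
open Vale.Agent.P363.R.Sob
open Vale.Agent.P363.R.Top
open scoped ContDiff ComplexConjugate Interval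

noncomputable section

/-- B5.5: two-sided asymptotics of the Dyson amplitude. -/
theorem two_sided (κ : ℝ) (hκ : 0 < κ) : ∃ ε > 0, ∀ lam, 0 < lam → lam < ε →
    ∀ (Φ : ElectronState 4) (Ψ : ElectronState 5), AtomPair κ lam ε Φ Ψ →
      ∃ c1 C1 R, TwoSided (kOf lam Φ Ψ) (sOf lam Φ Ψ) c1 C1 R (dyson Φ Ψ 0) :=
  two_sided_of κ hκ (H849.orb_memLp 4) (R.B5.agmon_final κ) (H943.rem_bound_of κ (R.B5.mult_final κ))
    (fun hl _ _ P ζ hζ h0 => H943.dyson_eq hl P ζ hζ h0) (fun h => H943.dyson_le h)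
    (fun Ψ => H943.density_integrable Ψ)

/-- B5 (assembly), modulo the `Q` channel. -/
theorem b5_far_of (κ : ℝ) (hκ : 0 < κ)
    (hQ : ∃ ε > 0, ∀ lam, 0 < lam → lam < ε →
      ∀ (Φ : ElectronState 4) (Ψ : ElectronState 5), AtomPair κ lam ε Φ Ψ →
      ∀ c1 C1 R, TwoSided (kOf lam Φ Ψ) (sOf lam Φ Ψ) c1 C1 R (dyson Φ Ψ 0) →
        ∃ C R', QSmall (kOf lam Φ Ψ) (sOf lam Φ Ψ) C R' (dyson Φ Ψ 0) (density Ψ)) :
    ∃ ε > 0, ∀ lam, 0 < lam → lam < ε →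
    ∀ (Φ : ElectronState 4) (Ψ : ElectronState 5), AtomPair κ lam ε Φ Ψ →
      FarKink (density Ψ) := by
  obtain ⟨ε1, hε1, H1⟩ := two_sided κ hκ
  obtain ⟨ε2, hε2, H2⟩ := hQ
  refine ⟨min (min ε1 ε2) (1 / 100), by positivity, fun lam hl hl' Φ Ψ P => ?_⟩
  have h1 : min (min ε1 ε2) (1 / 100) ≤ ε1 := (min_le_left _ _).trans (min_le_left _ _)
  have h2 : min (min ε1 ε2) (1 / 100) ≤ ε2 := (min_le_left _ _).trans (min_le_right _ _)
  have h3 : min (min ε1 ε2) (1 / 100) ≤ 1 / 100 := min_le_right _ _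
  obtain ⟨c1, C1, R, hTS⟩ := H1 lam hl (hl'.trans_le h1) Φ Ψ (P.mono h1)
  obtain ⟨C, R', hQS⟩ := H2 lam hl (hl'.trans_le h2) Φ Ψ (P.mono h2) c1 C1 R hTS
  obtain ⟨hk0, -, hk1⟩ := kOf_near P (h3.trans_lt (by norm_num))
  have hk2 := abs_le.1 hk1
  set k := kOf lam Φ Ψ with hk
  have hl3 : lam < 1 / 100 := hl'.trans_le h3
  have ha : 21 / 50 < k := by
    by_contra h
    have : k ≤ 21 / 50 := not_lt.1 h
    have : k ^ 2 ≤ (21 / 50) ^ 2 := pow_le_pow_left₀ hk0.le this 2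
    nlinarith
  have hb : k < 3 / 5 := by
    by_contra h
    have : 3 / 5 ≤ k := not_lt.1 h
    have : (3 / 5) ^ 2 ≤ k ^ 2 := pow_le_pow_left₀ (by norm_num) this 2
    nlinarith
  have hs : sOf lam Φ Ψ = (1 - 4 * lam) / k := rfl
  refine H79.farKink_of (k := k) (s := sOf lam Φ Ψ) (by linarith) ?_ ?_
    P.dyson_mem.1 (H943.dyson_le P.gsΦ.1) (H943.density_integrable Ψ) hTS hQS
  · rw [hs, le_div_iff₀ hk0]
    linarith
  · rw [hs, div_le_iff₀ hk0]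
    linarith

end

end Vale.Agent.P363.B5
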