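import Vale.Agent.P363.R.B5.ODE

/-! The flux (Wronskian) argument for `w'' = (k² - 2ks/r + 2/r²) w + ρ` on a half line. -/

namespace Vale.Agent.P363.B5

open MeasureTheory Set Filter Topology
open scoped ContDiff Interval

noncomputable section

/-- The growing comparison function `r^{-s} e^{kr}`. -/
def Xf (k s r : ℝ) : ℝ := Real.exp (k * r - s * Real.log r)

/-- Its derivative. -/
def Xf1 (k s r : ℝ) : ℝ := (k - s / r) * Xf k s r

/-- Its second derivative. -/
def Xf2 (k s r : ℝ) : ℝ := (k ^ 2 - 2 * k * s / r + (s ^ 2 + s) / r ^ 2) * Xf k s r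

theorem Xf_pos (k s r : ℝ) : 0 < Xf k s r := Real.exp_pos _

theorem hasDerivAt_Xf (k s : ℝ) {r : ℝ} (hr : 0 < r) : HasDerivAt (Xf k s) (Xf1 k s r) r := by
  have h1 : HasDerivAt (fun r => k * r - s * Real.log r) (k * 1 - s * r⁻¹) r :=
    ((hasDerivAt_id r).const_mul k).sub ((Real.hasDerivAt_log hr.ne').const_mul s)
  refine h1.exp.congr_deriv ?_
  simp only [Xf1, Xf]
  ring

theorem hasDerivAt_Xf1 (k s : ℝ) {r : ℝ} (hr : 0 < r) : HasDerivAt (Xf1 k s) (Xf2 k s r) r := by
  have h1 : HasDerivAt (fun r => k - s / r) (s / r ^ 2) r := by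
    have h0 := ((hasDerivAt_inv hr.ne').const_mul s).const_sub k
    refine (h0.congr_deriv ?_).congr_of_eventuallyEq ?_
    · field_simp
    · exact Eventually.of_forall fun x => by simp only [div_eq_mul_inv]
  refine (h1.mul (hasDerivAt_Xf k s hr)).congr_deriv ?_
  simp only [Xf2, Xf1]
  have := hr.ne'
  field_simp
  ring

theorem continuousOn_Xf (k s : ℝ) : ContinuousOn (Xf k s) (Ioi 0) := fun _ hr =>
  (hasDerivAt_Xf k s hr).continuousAt.continuousWithinAt

theorem continuousOn_Xf1 (k s : ℝ) : ContinuousOn (Xf1 k s) (Ioi 0) := fun _ hr =>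
  (hasDerivAt_Xf1 k s hr).continuousAt.continuousWithinAt

theorem continuousOn_Xf2 (k s : ℝ) : ContinuousOn (Xf2 k s) (Ioi 0) := by
  unfold Xf2
  refine ContinuousOn.mul ?_ (continuousOn_Xf k s)
  refine ((continuousOn_const.sub (continuousOn_const.div continuousOn_id fun x hx => ne_of_gt hx))).add
    (continuousOn_const.div (continuousOn_id.pow 2) fun x hx => pow_ne_zero 2 (ne_of_gt hx))

/-- A `C¹` solution of `w'' = h` on `(a, ∞)` in the integrated sense. -/
structure IsSol (a : ℝ) (w w1 h : ℝ → ℝ) : Prop where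
  ha : 0 ≤ a
  hd : ∀ r, a < r → HasDerivAt w (w1 r) r
  hw1 : ContinuousOn w1 (Ioi a)
  hh : LocallyIntegrableOn h (Ioi a)
  hint : ∀ r r', a < r → r ≤ r' → w1 r' - w1 r = ∫ t in r..r', h t

theorem IsSol.continuousOn {a : ℝ} {w w1 h : ℝ → ℝ} (S : IsSol a w w1 h) :
    ContinuousOn w (Ioi a) := fun r hr => (S.hd r hr).continuousAt.continuousWithinAt

theorem IsSol.ii {a : ℝ} {w w1 h : ℝ → ℝ} (S : IsSol a w w1 h) {r r' : ℝ} (hr : a < r)
    (hr' : a < r') : IntervalIntegrable h volume r r' := by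
  rw [intervalIntegrable_iff]
  refine (S.hh.integrableOn_compact_subset ?_ isCompact_uIcc).mono_set uIoc_subset_uIcc
  intro x hx
  exact lt_of_lt_of_le (lt_min hr hr') hx.1

/-- The flux. -/
def flux (k s : ℝ) (w w1 : ℝ → ℝ) (r : ℝ) : ℝ := w r * Xf1 k s r - w1 r * Xf k s r

/-- Increment of the flux. -/
theorem IsSol.flux_sub {a : ℝ} {w w1 h : ℝ → ℝ} (S : IsSol a w w1 h) (k s : ℝ) {r r' : ℝ}
    (hr : a < r) (hrr' : r ≤ r') :
    flux k s w w1 r' - flux k s w w1 r =
      ∫ t in r..r', (w t * Xf2 k s t - h t * Xf k s t) := by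
  have ha := S.ha
  have hsub : Icc r r' ⊆ Ioi a := fun x hx => hr.trans_le hx.1
  have hsub0 : Icc r r' ⊆ Ioi (0 : ℝ) := fun x hx => (ha.trans_lt hr).trans_le hx.1
  have hu : uIcc r r' = Icc r r' := uIcc_of_le hrr'
  have k1 := prim_mul (h := h) (g := Xf k s) (g1 := Xf1 k s) (w1 r) hrr'
    (S.ii hr (hr.trans_le hrr')) (fun x hx => hasDerivAt_Xf k s (hsub0 hx))
    ((continuousOn_Xf1 k s).mono hsub0)
  have i1 : IntervalIntegrable (fun t => w1 t * Xf1 k s t) volume r r' :=
    (((S.hw1.mono hsub).mul ((continuousOn_Xf1 k s).mono hsub0)).mono hu.le).intervalIntegrable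
  have i2 : IntervalIntegrable (fun t => w t * Xf2 k s t) volume r r' :=
    (((S.continuousOn.mono hsub).mul ((continuousOn_Xf2 k s).mono hsub0)).mono hu.le).intervalIntegrable
  have i3 : IntervalIntegrable (fun t => h t * Xf k s t) volume r r' :=
    (S.ii hr (hr.trans_le hrr')).mul_continuousOn (((continuousOn_Xf k s).mono hsub0).mono hu.le)
  have k2 : w r' * Xf1 k s r' - w r * Xf1 k s r
      = ∫ t in r..r', (w1 t * Xf1 k s t + w t * Xf2 k s t) := by
    refine (intervalIntegral.integral_eq_sub_of_hasDerivAt (f := fun t => w t * Xf1 k s t)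
      (fun x hx => ?_) (i1.add i2)).symm
    rw [hu] at hx
    exact (S.hd x (hsub hx)).mul (hasDerivAt_Xf1 k s (hsub0 hx))
  have e1 : ∫ x in r..r', (h x * Xf k s x + (w1 r + ∫ t in r..x, h t) * Xf1 k s x)
      = ∫ x in r..r', (h x * Xf k s x + w1 x * Xf1 k s x) := by
    refine intervalIntegral.integral_congr fun x hx => ?_
    rw [hu] at hx
    have := S.hint r x hr hx.1
    have e : w1 r + ∫ t in r..x, h t = w1 x := by rw [← this]; ring
    simp only [e]
  rw [e1, ← S.hint r r' hr hrr', intervalIntegral.integral_add i3 i1] at k1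
  rw [intervalIntegral.integral_add i1 i2] at k2
  rw [intervalIntegral.integral_sub i2 i3]
  simp only [flux]
  have : w1 r + (w1 r' - w1 r) = w1 r' := by ring
  rw [this] at k1
  linarith

/-- The data of the radial equation: `w'' = (k² - 2ks/r + 2/r²) w + ρ` on `(a, ∞)` with a
remainder `ρ` and a weighted integral bound. -/
structure FluxData (k s a C K : ℝ) (w w1 h ρ N : ℝ → ℝ) : Prop extends IsSol a w w1 h where
  hk : 0 < k
  ha1 : 1 ≤ a
  hs1 : 7 / 4 ≤ s
  hs2 : s ≤ 9 / 4
  hC : 0 ≤ C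
  heq : ∀ᵐ t, a < t → h t = (k ^ 2 - 2 * k * s / t + 2 / t ^ 2) * w t + ρ t
  hwN : ∀ᵐ t, a < t → |w t| ≤ N t
  hρ : ∀ᵐ t, a < t → |ρ t| ≤ C / t ^ 2 * N t
  hM : IntegrableOn (fun t => (Real.exp (k * t) / t ^ 3 * N t) ^ 2) (Ioi a)
  hK : ∫ t in Ioi a, (Real.exp (k * t) / t ^ 3 * N t) ^ 2 ≤ K

theorem integral_rpow_le {R r : ℝ} (hR : 0 < R) (hRr : R ≤ r) :
    ∫ t in R..r, t ^ (-(3 / 2) : ℝ) ≤ 2 * R ^ (-(1 / 2) : ℝ) := by
  have h0 : ∀ t ∈ Ioi R, (0 : ℝ) ≤ t ^ (-(3 / 2) : ℝ) := fun t ht =>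
    Real.rpow_nonneg (hR.trans ht).le _
  have h1 : IntegrableOn (fun t : ℝ => t ^ (-(3 / 2) : ℝ)) (Ioi R) :=
    integrableOn_Ioi_rpow_of_lt (by norm_num) hR
  have h2 : ∫ t in Ioi R, t ^ (-(3 / 2) : ℝ) = 2 * R ^ (-(1 / 2) : ℝ) := by
    rw [integral_Ioi_rpow_of_lt (by norm_num) hR]
    norm_num
    ring
  rw [intervalIntegral.integral_of_le hRr, ← h2]
  exact setIntegral_mono_set h1 ((ae_restrict_iff' measurableSet_Ioi).2 (Eventually.of_forall h0))
    (Ioc_subset_Ioi_self.eventuallyLE)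

theorem FluxData.osc {k s a C K : ℝ} {w w1 h ρ N : ℝ → ℝ} (D : FluxData k s a C K w w1 h ρ N)
    {δ R r r' : ℝ} (hδ : 0 < δ) (haR : a < R) (hRr : R ≤ r) (hrr' : r ≤ r') :
    |flux k s w w1 r' - flux k s w w1 r| ≤
      (6 + C) / 2 * (δ * (2 * R ^ (-(1 / 2) : ℝ)) + δ⁻¹ * K) := by
  have ha := D.ha1
  have har : a < r := haR.trans_le hRr
  have hr0 : 0 < r := by linarith
  rw [D.toIsSol.flux_sub k s har hrr']
  set M : ℝ → ℝ := fun t => Real.exp (k * t) / t ^ 3 * N t with hMdef
  have hii1 : IntervalIntegrable (fun t : ℝ => t ^ (-(3 / 2) : ℝ)) volume r r' := by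
    refine (ContinuousOn.rpow_const continuousOn_id fun x hx => Or.inl ?_).intervalIntegrable
    rw [uIcc_of_le hrr'] at hx
    exact (hr0.trans_le hx.1).ne'
  have hii2 : IntervalIntegrable (fun t : ℝ => M t ^ 2) volume r r' := by
    rw [intervalIntegrable_iff_integrableOn_Ioc_of_le hrr']
    exact D.hM.mono_set fun x hx => har.trans hx.1
  have hbound : ∀ᵐ t, t ∈ Ioc r r' → ‖w t * Xf2 k s t - h t * Xf k s t‖ ≤
      (6 + C) / 2 * (δ * t ^ (-(3 / 2) : ℝ) + δ⁻¹ * M t ^ 2) := by
    filter_upwards [D.heq, D.hwN, D.hρ] with t h1 h2 h3 ht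
    have hat : a < t := har.trans ht.1
    have ht0 : 0 < t := hr0.trans ht.1
    have ht1 : 1 ≤ t := by linarith
    have hN : 0 ≤ N t := (abs_nonneg _).trans (h2 hat)
    have hM0 : 0 ≤ M t := by
      simp only [hMdef]
      positivity
    have hX := Xf_pos k s t
    have e1 : w t * Xf2 k s t - h t * Xf k s t
        = Xf k s t * ((s ^ 2 + s - 2) / t ^ 2 * w t - ρ t) := by
      rw [h1 hat, Xf2]
      ring
    have e2 : |(s ^ 2 + s - 2) / t ^ 2 * w t - ρ t| ≤ (6 + C) / t ^ 2 * N t := by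
      have hs1 := D.hs1
      have hs2 := D.hs2
      have q1 : |(s ^ 2 + s - 2) / t ^ 2 * w t| ≤ 6 / t ^ 2 * N t := by
        rw [abs_mul, abs_div, abs_of_pos (by positivity : (0 : ℝ) < t ^ 2)]
        have q2 : |s ^ 2 + s - 2| ≤ 6 := by
          rw [abs_le]
          constructor <;> nlinarith
        gcongr
        exact h2 hat
      calc |(s ^ 2 + s - 2) / t ^ 2 * w t - ρ t| ≤ |(s ^ 2 + s - 2) / t ^ 2 * w t| + |ρ t| :=
            abs_sub _ _
        _ ≤ 6 / t ^ 2 * N t + C / t ^ 2 * N t := add_le_add q1 (h3 hat)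
        _ = (6 + C) / t ^ 2 * N t := by ring
    have e3 : Xf k s t * (1 / t ^ 2 * N t) ≤ t ^ (-(3 / 4) : ℝ) * M t := by
      have q1 : Xf k s t = Real.exp (k * t) * t ^ (-s) := by
        rw [Xf, Real.rpow_def_of_pos ht0, ← Real.exp_add]
        ring_nf
      have q2 : Xf k s t * (1 / t ^ 2 * N t) = (t ^ (-s) * t) * M t := by
        rw [q1]
        simp only [hMdef]
        field_simp
      rw [q2]
      gcongr
      have q3 : t ^ (-s) * t = t ^ (1 - s) := by
        rw [sub_eq_add_neg, add_comm, Real.rpow_add ht0, Real.rpow_one]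
      rw [q3]
      exact Real.rpow_le_rpow_of_exponent_le ht1 (by linarith [D.hs1])
    have e4 : t ^ (-(3 / 4) : ℝ) * M t ≤ 1 / 2 * (δ * t ^ (-(3 / 2) : ℝ) + δ⁻¹ * M t ^ 2) := by
      have q1 : t ^ (-(3 / 2) : ℝ) = (t ^ (-(3 / 4) : ℝ)) ^ 2 := by
        rw [← Real.rpow_natCast, ← Real.rpow_mul ht0.le]
        norm_num
      rw [q1]
      set u := t ^ (-(3 / 4) : ℝ)
      have q2 : 0 ≤ δ⁻¹ * (δ * u - M t) ^ 2 := by positivity
      have q3 : δ⁻¹ * (δ * u - M t) ^ 2 = δ * u ^ 2 - 2 * (u * M t) + δ⁻¹ * M t ^ 2 := by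
        field_simp
        ring
      linarith
    rw [e1, Real.norm_eq_abs, abs_mul, abs_of_pos hX]
    have hC := D.hC
    calc Xf k s t * |(s ^ 2 + s - 2) / t ^ 2 * w t - ρ t|
        ≤ Xf k s t * ((6 + C) / t ^ 2 * N t) := by gcongr
      _ = (6 + C) * (Xf k s t * (1 / t ^ 2 * N t)) := by ring
      _ ≤ (6 + C) * (1 / 2 * (δ * t ^ (-(3 / 2) : ℝ) + δ⁻¹ * M t ^ 2)) := by
          exact mul_le_mul_of_nonneg_left (e3.trans e4) (by linarith)
      _ = (6 + C) / 2 * (δ * t ^ (-(3 / 2) : ℝ) + δ⁻¹ * M t ^ 2) := by ring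
  have hg : IntervalIntegrable (fun t => (6 + C) / 2 * (δ * t ^ (-(3 / 2) : ℝ) + δ⁻¹ * M t ^ 2))
      volume r r' := ((hii1.const_mul δ).add (hii2.const_mul δ⁻¹)).const_mul _
  have h1 := intervalIntegral.norm_integral_le_of_norm_le hrr' hbound hg
  rw [Real.norm_eq_abs] at h1
  refine h1.trans ?_
  rw [intervalIntegral.integral_const_mul, intervalIntegral.integral_add (hii1.const_mul δ)
    (hii2.const_mul δ⁻¹), intervalIntegral.integral_const_mul, intervalIntegral.integral_const_mul]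
  have hC := D.hC
  have i1 : ∫ t in r..r', t ^ (-(3 / 2) : ℝ) ≤ 2 * R ^ (-(1 / 2) : ℝ) := by
    refine (integral_rpow_le hr0 hrr').trans ?_
    have : r ^ (-(1 / 2) : ℝ) ≤ R ^ (-(1 / 2) : ℝ) :=
      Real.rpow_le_rpow_of_nonpos (by linarith) hRr (by norm_num)
    linarith
  have i2 : ∫ t in r..r', M t ^ 2 ≤ K := by
    rw [intervalIntegral.integral_of_le hrr']
    refine le_trans ?_ D.hK
    refine setIntegral_mono_set D.hM (Eventually.of_forall fun t => sq_nonneg _) ?_
    exact (show Ioc r r' ⊆ Ioi a from fun x hx => har.trans hx.1).eventuallyLE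
  gcongr

/-- `X^{-2}`. -/
def Yf (k s r : ℝ) : ℝ := (Xf k s r ^ 2)⁻¹

theorem Yf_pos (k s r : ℝ) : 0 < Yf k s r := inv_pos.2 (pow_pos (Xf_pos k s r) 2)

theorem hasDerivAt_Yf (k s : ℝ) {r : ℝ} (hr : 0 < r) :
    HasDerivAt (Yf k s) (-(2 * (k - s / r) * Yf k s r)) r := by
  have hX := (Xf_pos k s r).ne'
  have h1 := ((hasDerivAt_Xf k s hr).pow 2).inv (pow_ne_zero 2 hX)
  refine h1.congr_deriv ?_
  simp only [Yf, Xf1]
  field_simp
  norm_num
  ring

theorem tendsto_Xf (k s : ℝ) (hk : 0 < k) : Tendsto (Xf k s) atTop atTop := by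
  have h1 : Tendsto (fun r : ℝ => k * r - s * Real.log r) atTop atTop := by
    have h2 : Tendsto (fun r : ℝ => r * (k - s * (Real.log r / r))) atTop atTop := by
      have h3 : Tendsto (fun r : ℝ => Real.log r / r) atTop (𝓝 0) := by
        have := Real.isLittleO_log_id_atTop.tendsto_div_nhds_zero
        simpa using this
      have h4 : Tendsto (fun r : ℝ => k - s * (Real.log r / r)) atTop (𝓝 k) := by
        have := (h3.const_mul s).const_sub k
        simpa using this
      exact tendsto_id.atTop_mul_pos hk h4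
    refine h2.congr' ?_
    filter_upwards [eventually_gt_atTop 0] with r hr
    field_simp
  exact Real.tendsto_exp_atTop.comp h1

theorem tendsto_Yf (k s : ℝ) (hk : 0 < k) : Tendsto (Yf k s) atTop (𝓝 0) := by
  have := ((tendsto_pow_atTop (two_ne_zero)).comp (tendsto_Xf k s hk)).inv_tendsto_atTop
  exact this

/-- `w / X`. -/
theorem IsSol.hasDerivAt_div {a : ℝ} {w w1 h : ℝ → ℝ} (S : IsSol a w w1 h) (k s : ℝ) {r : ℝ}
    (hr : a < r) : HasDerivAt (fun t => w t / Xf k s t) (-(flux k s w w1 r * Yf k s r)) r := by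
  have hX := (Xf_pos k s r).ne'
  refine ((S.hd r hr).div (hasDerivAt_Xf k s (S.ha.trans_lt hr)) hX).congr_deriv ?_
  simp only [flux, Yf]
  field_simp
  ring

/-- A function `w` with `ε X ≤ |w|` for large `r` contradicts the weighted integrability. -/
theorem FluxData.not_large {k s a C K : ℝ} {w w1 h ρ N : ℝ → ℝ}
    (D : FluxData k s a C K w w1 h ρ N) {ε r : ℝ} (hε : 0 < ε)
    (H : ∀ t, r < t → ε * Xf k s t ≤ |w t|) : False := by
  have ha := D.ha1
  -- `e^{kt}/t³ · ε X(t) → ∞`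
  have hlim : Tendsto (fun t : ℝ => Real.exp (k * t) / t ^ 3 * (ε * Xf k s t)) atTop atTop := by
    have h1 : Tendsto (fun t : ℝ => ε * Xf (2 * k) (s + 3) t) atTop atTop :=
      (tendsto_Xf (2 * k) (s + 3) (by linarith [D.hk])).const_mul_atTop hε
    refine h1.congr' ?_
    filter_upwards [eventually_gt_atTop 0] with t ht
    have e1 : Xf (2 * k) (s + 3) t = Real.exp (k * t) * Xf k s t / t ^ 3 := by
      have e2 : t ^ 3 = Real.exp (3 * Real.log t) := by
        rw [mul_comm, Real.exp_mul, Real.exp_log ht]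
        norm_cast
      rw [e2, Xf, Xf, ← Real.exp_add, ← Real.exp_sub]
      ring_nf
    rw [e1]
    ring
  obtain ⟨T, hT⟩ := (hlim.eventually_ge_atTop 1).exists_forall_of_atTop
  set T' := max (max T r) a with hT'
  have hint : IntegrableOn (fun _ : ℝ => (1 : ℝ)) (Ioi T') := by
    have h1 : IntegrableOn (fun t => (Real.exp (k * t) / t ^ 3 * N t) ^ 2) (Ioi T') :=
      D.hM.mono_set (Ioi_subset_Ioi (le_max_right _ _))
    refine Integrable.mono h1 aestronglyMeasurable_const ?_
    rw [ae_restrict_iff' measurableSet_Ioi]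
    filter_upwards [D.hwN] with t ht htT
    have h2 : T < t := (le_max_left _ _).trans_lt ((le_max_left _ _).trans_lt htT)
    have h3 : r < t := (le_max_right _ _).trans_lt ((le_max_left _ _).trans_lt htT)
    have h4 : a < t := (le_max_right _ _).trans_lt htT
    have h5 : 0 < t := by linarith
    have h6 := hT t h2.le
    have h7 := H t h3
    have h8 := ht h4
    have h9 : 1 ≤ Real.exp (k * t) / t ^ 3 * N t := by
      refine h6.trans ?_
      gcongr
      exact h7.trans h8
    rw [norm_one, Real.norm_of_nonneg (sq_nonneg _)]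
    nlinarith
  rw [integrableOn_const_iff] at hint
  simp at hint

theorem FluxData.upper {k s a C K : ℝ} {w w1 h ρ N : ℝ → ℝ}
    (D : FluxData k s a C K w w1 h ρ N) {C1 R : ℝ} (haR : a < R)
    (hR : 2 * s / R ≤ k) (hF : ∀ r, R ≤ r → |flux k s w w1 r| ≤ C1) :
    ∀ r, R ≤ r → |w r / Xf k s r| ≤ C1 / k * Yf k s r := by
  have hk := D.hk
  have ha := D.ha1
  have hR0 : 0 < R := by linarith
  have hC1 : 0 ≤ C1 := (abs_nonneg _).trans (hF R le_rfl)
  have hs : 0 < s := by linarith [D.hs1]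
  have hkr : ∀ r, R ≤ r → k ≤ 2 * (k - s / r) := by
    intro r hr
    have h1 : s / r ≤ s / R := div_le_div_of_nonneg_left hs.le hR0 hr
    have h2 : 2 * s / R = 2 * (s / R) := by ring
    linarith
  -- monotonicity of `q - (C1/k) Y` and `q + (C1/k) Y`
  have hd : ∀ (σ : ℝ) r, R ≤ r → HasDerivAt (fun t => w t / Xf k s t + σ * (C1 / k) * Yf k s t)
      (-(flux k s w w1 r * Yf k s r) + σ * (C1 / k) * (-(2 * (k - s / r) * Yf k s r))) r := by
    intro σ r hr
    exact (D.toIsSol.hasDerivAt_div k s (haR.trans_le hr)).add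
      ((hasDerivAt_Yf k s (hR0.trans_le hr)).const_mul _)
  have hmono : MonotoneOn (fun t => w t / Xf k s t + (-1) * (C1 / k) * Yf k s t) (Ici R) := by
    refine monotoneOn_of_deriv_nonneg (convex_Ici R)
      (fun r hr => (hd (-1) r hr).continuousAt.continuousWithinAt)
      (fun r hr => ?_) (fun r hr => ?_)
    · rw [interior_Ici] at hr
      exact (hd (-1) r hr.le).differentiableAt.differentiableWithinAt
    · rw [interior_Ici] at hr
      rw [(hd (-1) r hr.le).deriv]
      have h1 := hkr r hr.le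
      have h2 := (abs_le.1 (hF r hr.le)).2
      have hY := Yf_pos k s r
      have h3 : C1 ≤ C1 / k * (2 * (k - s / r)) := by
        calc C1 = C1 / k * k := by field_simp
          _ ≤ _ := by gcongr
      nlinarith
  have hanti : AntitoneOn (fun t => w t / Xf k s t + 1 * (C1 / k) * Yf k s t) (Ici R) := by
    refine antitoneOn_of_deriv_nonpos (convex_Ici R)
      (fun r hr => (hd 1 r hr).continuousAt.continuousWithinAt)
      (fun r hr => ?_) (fun r hr => ?_)
    · rw [interior_Ici] at hr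
      exact (hd 1 r hr.le).differentiableAt.differentiableWithinAt
    · rw [interior_Ici] at hr
      rw [(hd 1 r hr.le).deriv]
      have h1 := hkr r hr.le
      have h2 := (abs_le.1 (hF r hr.le)).1
      have hY := Yf_pos k s r
      have h3 : C1 ≤ C1 / k * (2 * (k - s / r)) := by
        calc C1 = C1 / k * k := by field_simp
          _ ≤ _ := by gcongr
      nlinarith
  intro r hr
  rw [abs_le]
  constructor
  · by_contra hlt
    rw [not_le] at hlt
    set ε := -(w r / Xf k s r + 1 * (C1 / k) * Yf k s r) with hε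
    have hεpos : 0 < ε := by rw [hε]; linarith
    refine D.not_large (r := r) hεpos fun t ht => ?_
    have h1 := hanti hr (hr.trans ht.le) ht.le
    simp only at h1
    have hY := Yf_pos k s t
    have hX := Xf_pos k s t
    have h2 : w t / Xf k s t ≤ -ε := by
      have : 0 ≤ 1 * (C1 / k) * Yf k s t := by positivity
      linarith
    have h3 : w t ≤ -ε * Xf k s t := by rwa [div_le_iff₀ hX] at h2
    have h4 := neg_le_abs (w t)
    linarith
  · by_contra hlt
    rw [not_le] at hlt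
    set ε := w r / Xf k s r + (-1) * (C1 / k) * Yf k s r with hε
    have hεpos : 0 < ε := by rw [hε]; linarith
    refine D.not_large (r := r) hεpos fun t ht => ?_
    have h1 := hmono hr (hr.trans ht.le) ht.le
    simp only at h1
    have hY := Yf_pos k s t
    have hX := Xf_pos k s t
    have h2 : ε ≤ w t / Xf k s t := by
      have : 0 ≤ (C1 / k) * Yf k s t := by positivity
      linarith
    have h3 : ε * Xf k s t ≤ w t := by rwa [le_div_iff₀ hX] at h2
    exact h3.trans (le_abs_self _)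

theorem FluxData.lower {k s a C K : ℝ} {w w1 h ρ N : ℝ → ℝ}
    (D : FluxData k s a C K w w1 h ρ N) {c1 C1 R : ℝ} (haR : a < R)
    (hR : 2 * s / R ≤ k) (hc1 : 0 ≤ c1) (hF : ∀ r, R ≤ r → |flux k s w w1 r| ≤ C1)
    (hF' : ∀ r, R ≤ r → c1 ≤ flux k s w w1 r) :
    ∀ r, R ≤ r → c1 / (2 * k) * Yf k s r ≤ w r / Xf k s r := by
  have hk := D.hk
  have ha := D.ha1
  have hR0 : 0 < R := by linarith
  have hs : 0 < s := by linarith [D.hs1]
  have hd : ∀ r, R ≤ r → HasDerivAt (fun t => w t / Xf k s t - (c1 / (2 * k)) * Yf k s t)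
      (-(flux k s w w1 r * Yf k s r) - (c1 / (2 * k)) * (-(2 * (k - s / r) * Yf k s r))) r := by
    intro r hr
    exact (D.toIsSol.hasDerivAt_div k s (haR.trans_le hr)).sub
      ((hasDerivAt_Yf k s (hR0.trans_le hr)).const_mul _)
  have hanti : AntitoneOn (fun t => w t / Xf k s t - (c1 / (2 * k)) * Yf k s t) (Ici R) := by
    refine antitoneOn_of_deriv_nonpos (convex_Ici R)
      (fun r hr => (hd r hr).continuousAt.continuousWithinAt)
      (fun r hr => ?_) (fun r hr => ?_)
    · rw [interior_Ici] at hr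
      exact (hd r hr.le).differentiableAt.differentiableWithinAt
    · rw [interior_Ici] at hr
      rw [(hd r hr.le).deriv]
      have hr0 : 0 < r := hR0.trans hr
      have h2 := hF' r hr.le
      have hY := Yf_pos k s r
      have h3 : c1 / (2 * k) * (2 * (k - s / r)) ≤ c1 := by
        have : k - s / r ≤ k := by
          have : 0 ≤ s / r := by positivity
          linarith
        calc c1 / (2 * k) * (2 * (k - s / r)) ≤ c1 / (2 * k) * (2 * k) := by gcongr
          _ = c1 := by field_simp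
      nlinarith
  have hup := D.upper haR hR hF
  have hlim : Tendsto (fun t => w t / Xf k s t - (c1 / (2 * k)) * Yf k s t) atTop (𝓝 0) := by
    have hY := tendsto_Yf k s hk
    have h1 : Tendsto (fun t => w t / Xf k s t) atTop (𝓝 0) := by
      refine squeeze_zero_norm' (a := fun t => C1 / k * Yf k s t) ?_ ?_
      · filter_upwards [eventually_ge_atTop R] with t ht
        exact hup t ht
      · simpa using hY.const_mul (C1 / k)
    simpa using h1.sub (hY.const_mul (c1 / (2 * k)))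
  intro r hr
  have h1 : 0 ≤ w r / Xf k s r - (c1 / (2 * k)) * Yf k s r := by
    refine le_of_tendsto hlim ?_
    filter_upwards [eventually_ge_atTop r] with t ht
    exact hanti hr (hr.trans ht) ht
  linarith

end

end Vale.Agent.P363.B5
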