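import Mathlib

/-! One-dimensional tools for the asymptotics at infinity: weak second-order equations on a
half-line, and the flux (Wronskian) argument. -/

namespace Vale.Agent.P363.B5

open MeasureTheory Set Filter Topology
open scoped ContDiff Interval

noncomputable section

/-- Product rule for a primitive of an integrable function and a `C¹` function. -/
theorem prim_mul {h g g1 : ℝ → ℝ} {a b : ℝ} (c : ℝ) (hab : a ≤ b)
    (hh : IntervalIntegrable h volume a b)
    (hg : ∀ x ∈ Icc a b, HasDerivAt g (g1 x) x) (hg1 : ContinuousOn g1 (Icc a b)) :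
    (c + ∫ x in a..b, h x) * g b - c * g a =
      ∫ x in a..b, (h x * g x + (c + ∫ t in a..x, h t) * g1 x) := by
  have hu : uIcc a b = Icc a b := uIcc_of_le hab
  have hH := hh.absolutelyContinuousOnInterval_intervalIntegral (c := a) left_mem_uIcc
  have hcst : AbsolutelyContinuousOnInterval (fun _ : ℝ => c) a b := by
    refine LipschitzOnWith.absolutelyContinuousOnInterval (K := 0) ?_
    exact LipschitzOnWith.of_dist_le_mul (fun x _ y _ => by simp)
  have hF : AbsolutelyContinuousOnInterval (fun x => c + ∫ t in a..x, h t) a b := hcst.add hH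
  have hgc : ContDiffOn ℝ 1 g (uIcc a b) := by
    rw [hu]
    rcases hab.eq_or_lt with rfl | hlt
    · simp only [Icc_self]
      intro x hx
      rw [mem_singleton_iff.1 hx]
      exact contDiffWithinAt_singleton
    · rw [contDiffOn_one_iff_derivWithin (uniqueDiffOn_Icc hlt)]
      refine ⟨fun x hx => (hg x hx).differentiableAt.differentiableWithinAt, ?_⟩
      refine hg1.congr fun x hx => ?_
      exact (hg x hx).hasDerivWithinAt.derivWithin (uniqueDiffOn_Icc hlt x hx)
  have hG : AbsolutelyContinuousOnInterval g a b := hgc.absolutelyContinuousOnInterval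
  have key := hF.integral_deriv_mul_eq_sub hG
  have e1 : (c + ∫ x in a..b, h x) * g b - c * g a
      = (c + ∫ t in a..b, h t) * g b - (c + ∫ t in a..a, h t) * g a := by simp
  rw [e1, ← key]
  refine intervalIntegral.integral_congr_ae ?_
  filter_upwards [hh.ae_hasDerivAt_integral] with x hx hx'
  have hxI : x ∈ uIcc a b := uIoc_subset_uIcc hx'
  have h1 : HasDerivAt (fun x => c + ∫ t in a..x, h t) (h x) x := (hx hxI a left_mem_uIcc).const_add c
  rw [h1.deriv, (hg x (hu ▸ hxI)).deriv]

/-- A compact subset of `(a, ∞)` is inside an open interval `(c, d)` with `a < c`. -/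
theorem exists_Ioo_of_compact {a : ℝ} {K : Set ℝ} (hK : IsCompact K) (hs : K ⊆ Ioi a) :
    ∃ c d, a < c ∧ c < d ∧ K ⊆ Ioo c d := by
  rcases K.eq_empty_or_nonempty with rfl | hne
  · exact ⟨a + 1, a + 2, by linarith, by linarith, empty_subset _⟩
  · obtain ⟨m, hm⟩ := hK.exists_isLeast hne
    obtain ⟨M, hM⟩ := hK.exists_isGreatest hne
    have h1 : a < m := hs hm.1
    have h2 : m ≤ M := hm.2 hM.1
    refine ⟨(a + m) / 2, M + 1, by linarith, by linarith, fun x hx => ⟨?_, ?_⟩⟩
    · have := hm.2 hx
      linarith
    · have := hM.2 hx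
      linarith

/-- A test function on `(a, ∞)`: smooth, compact support inside `(a, ∞)`. -/
structure TestOn (a : ℝ) (η : ℝ → ℝ) : Prop where
  smooth : ContDiff ℝ ∞ η
  cpt : HasCompactSupport η
  supp : tsupport η ⊆ Ioi a

theorem TestOn.deriv {a : ℝ} {η : ℝ → ℝ} (h : TestOn a η) : TestOn a (deriv η) where
  smooth := by
    have := h.smooth
    rw [contDiff_infty_iff_deriv] at this
    exact this.2
  cpt := h.cpt.deriv
  supp := (tsupport_deriv_subset (𝕜 := ℝ)).trans h.supp

theorem TestOn.differentiable {a : ℝ} {η : ℝ → ℝ} (h : TestOn a η) : Differentiable ℝ η :=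
  h.smooth.differentiable (by simp)

theorem TestOn.hasDerivAt {a : ℝ} {η : ℝ → ℝ} (h : TestOn a η) (x : ℝ) :
    HasDerivAt η (_root_.deriv η x) x := (h.differentiable x).hasDerivAt

theorem TestOn.continuous {a : ℝ} {η : ℝ → ℝ} (h : TestOn a η) : Continuous η :=
  h.smooth.continuous

theorem TestOn.integrable {a : ℝ} {η : ℝ → ℝ} (h : TestOn a η) : Integrable η :=
  h.continuous.integrable_of_hasCompactSupport h.cpt

theorem TestOn.exists_Ioo {a : ℝ} {η : ℝ → ℝ} (h : TestOn a η) :
    ∃ c d, a < c ∧ c < d ∧ (∀ x, x ∉ Ioo c d → η x = 0) := by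
  obtain ⟨c, d, h1, h2, h3⟩ := exists_Ioo_of_compact h.cpt h.supp
  refine ⟨c, d, h1, h2, fun x hx => ?_⟩
  by_contra hne
  exact hx (h3 (subset_tsupport η (Function.mem_support.2 hne)))

theorem TestOn.add_smul {a : ℝ} {η θ : ℝ → ℝ} (h : TestOn a η) (h' : TestOn a θ) (c : ℝ) :
    TestOn a (fun x => η x - c * θ x) where
  smooth := h.smooth.sub (contDiff_const.mul h'.smooth)
  cpt := h.cpt.sub (h'.cpt.mul_left (f := fun _ => c))
  supp := by
    refine (closure_mono ?_).trans ((closure_union.subset).trans (union_subset h.supp h'.supp))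
    intro x hx
    by_contra hne
    simp only [mem_union, Function.mem_support, not_or, not_not] at hne
    apply hx
    simp [hne.1, hne.2]

/-- A test function with integral zero has a primitive which is a test function. -/
theorem TestOn.exists_primitive {a : ℝ} {ψ : ℝ → ℝ} (h : TestOn a ψ) (h0 : ∫ x, ψ x = 0) :
    ∃ η, TestOn a η ∧ _root_.deriv η = ψ := by
  obtain ⟨c, d, hac, hcd, hz⟩ := h.exists_Ioo
  set η : ℝ → ℝ := fun t => ∫ x in c..t, ψ x with hη
  have hd : ∀ t, HasDerivAt η (ψ t) t := fun t =>
    (h.continuous.integral_hasStrictDerivAt c t).hasDerivAt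
  have hder : _root_.deriv η = ψ := funext fun t => (hd t).deriv
  have hzero : ∀ t, t ∉ Ioo c d → η t = 0 := by
    intro t ht
    rcases le_or_gt t c with h1 | h1
    · have : ∀ x ∈ uIcc c t, ψ x = 0 := by
        intro x hx
        rw [uIcc_of_ge h1] at hx
        exact hz x (fun h => absurd h.1 (not_lt.2 hx.2))
      simp only [hη]
      rw [intervalIntegral.integral_congr (g := fun _ => (0 : ℝ)) this]
      simp
    · have h2 : d ≤ t := by
        by_contra h3
        exact ht ⟨h1, not_le.1 h3⟩
      simp only [hη]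
      rw [intervalIntegral.integral_of_le h1.le, ← h0]
      refine setIntegral_eq_integral_of_forall_compl_eq_zero fun x hx => ?_
      apply hz
      intro hx'
      exact hx ⟨hx'.1, hx'.2.le.trans h2⟩
  have hsub : tsupport η ⊆ Icc c d := by
    refine closure_minimal (fun x hx => ?_) isClosed_Icc
    by_contra hx'
    exact hx (hzero x (fun h => hx' ⟨h.1.le, h.2.le⟩))
  refine ⟨η, ⟨?_, ?_, ?_⟩, hder⟩
  · rw [contDiff_infty_iff_deriv]
    exact ⟨fun t => (hd t).differentiableAt, hder ▸ h.smooth⟩
  · exact HasCompactSupport.of_support_subset_isCompact isCompact_Icc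
      ((subset_tsupport η).trans hsub)
  · exact hsub.trans fun x hx => lt_of_lt_of_le hac hx.1

/-- There is a test function with integral one. -/
theorem exists_testOn (a : ℝ) : ∃ θ, TestOn a θ ∧ ∫ x, θ x = 1 := by
  let f : ContDiffBump (a + 2) := ⟨1/2, 1, by norm_num, by norm_num⟩
  refine ⟨f.normed volume, ⟨f.contDiff_normed, f.hasCompactSupport_normed, ?_⟩, f.integral_normed⟩
  rw [f.tsupport_normed_eq]
  intro x hx
  rw [Metric.mem_closedBall, Real.dist_eq] at hx
  have := (abs_le.1 hx).1
  simp only [mem_Ioi]
  have h1 : f.rOut = 1 := rfl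
  rw [h1] at this
  linarith

theorem LocallyIntegrableOn.integrable_testOn {a : ℝ} {v η : ℝ → ℝ}
    (hv : LocallyIntegrableOn v (Ioi a)) (h : TestOn a η) : Integrable (fun x => η x * v x) := by
  obtain ⟨c, d, hac, hcd, hz⟩ := h.exists_Ioo
  have h1 : IntegrableOn v (Icc c d) :=
    hv.integrableOn_compact_subset (fun x hx => lt_of_lt_of_le hac hx.1) isCompact_Icc
  have h2 : IntegrableOn (fun x => η x * v x) (Icc c d) :=
    h1.continuousOn_mul h.continuous.continuousOn isCompact_Icc
  refine (integrableOn_iff_integrable_of_support_subset ?_).1 h2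
  intro x hx
  by_contra hx'
  apply hx
  have : η x = 0 := hz x (fun h => hx' ⟨h.1.le, h.2.le⟩)
  simp [this]

/-- Second-order du Bois-Reymond lemma on a half line. -/
theorem affine_of_weak {a : ℝ} {v : ℝ → ℝ} (hv : LocallyIntegrableOn v (Ioi a))
    (H : ∀ η, TestOn a η → ∫ x, deriv (deriv η) x * v x = 0) :
    ∃ A B : ℝ, ∀ᵐ x, a < x → v x = A + B * x := by
  obtain ⟨θ, hθ, hθ1⟩ := exists_testOn a
  set α := ∫ x, θ x * v x with hα
  set β := ∫ x, deriv θ x * v x with hβ
  set τ := ∫ x, x * θ x with hτ
  refine ⟨α + β * τ, -β, ?_⟩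
  have hfin : ∀ᵐ x, x ∈ Ioi a → v x - ((α + β * τ) + (-β) * x) = 0 := by
    refine IsOpen.ae_eq_zero_of_integral_contDiff_smul_eq_zero isOpen_Ioi
      (hv.sub ((by fun_prop : Continuous fun x : ℝ => (α + β * τ) + (-β) * x).locallyIntegrable.locallyIntegrableOn _)) ?_
    intro ψ hψ1 hψ2 hψ3
    have hψ : TestOn a ψ := ⟨hψ1, hψ2, hψ3⟩
    set I := ∫ x, ψ x with hI
    have h1 : TestOn a (fun x => ψ x - I * θ x) := hψ.add_smul hθ I
    have h1z : ∫ x, (ψ x - I * θ x) = 0 := by
      rw [integral_sub hψ.integrable (hθ.integrable.const_mul I), integral_const_mul, hθ1]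
      simp [hI]
    obtain ⟨η1, hη1, hη1d⟩ := h1.exists_primitive h1z
    set J := ∫ x, η1 x with hJ
    have h2 : TestOn a (fun x => η1 x - J * θ x) := hη1.add_smul hθ J
    have h2z : ∫ x, (η1 x - J * θ x) = 0 := by
      rw [integral_sub hη1.integrable (hθ.integrable.const_mul J), integral_const_mul, hθ1]
      simp [hJ]
    obtain ⟨ζ, hζ, hζd⟩ := h2.exists_primitive h2z
    have hdd : deriv (deriv ζ) = fun x => (ψ x - I * θ x) - J * deriv θ x := by
      rw [hζd]
      funext x
      have e1 : HasDerivAt η1 (ψ x - I * θ x) x := by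
        have := hη1.hasDerivAt x
        rw [hη1d] at this
        exact this
      exact (e1.sub ((hθ.hasDerivAt x).const_mul J)).deriv
    have key := H ζ hζ
    rw [hdd] at key
    have i1 := LocallyIntegrableOn.integrable_testOn hv hψ
    have i2 := LocallyIntegrableOn.integrable_testOn hv hθ
    have i3 := LocallyIntegrableOn.integrable_testOn hv hθ.deriv
    have key2 : ∫ x, ψ x * v x = I * α + J * β := by
      have i12 : Integrable (fun x => ψ x * v x - I * (θ x * v x)) := i1.sub (i2.const_mul I)
      have key : ∫ x, ((ψ x - I * θ x) - J * deriv θ x) * v x = 0 := key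
      have e : (fun x => ((ψ x - I * θ x) - J * deriv θ x) * v x)
          = fun x => (ψ x * v x - I * (θ x * v x)) - J * (deriv θ x * v x) := by
        funext x; ring
      rw [e, integral_sub i12 (i3.const_mul J),
        integral_sub i1 (i2.const_mul I), integral_const_mul, integral_const_mul] at key
      linarith
    have i4 : Integrable fun x : ℝ => x * ψ x :=
      (continuous_id.mul hψ.continuous).integrable_of_hasCompactSupport (hψ.cpt.mul_left)
    have i5 : Integrable fun x : ℝ => x * θ x :=
      (continuous_id.mul hθ.continuous).integrable_of_hasCompactSupport (hθ.cpt.mul_left)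
    have hJ2 : J = - (∫ x, x * ψ x) + I * τ := by
      have ip := integral_mul_deriv_eq_deriv_mul_of_integrable (u := fun x : ℝ => x) (v := η1)
        (u' := fun _ => 1) (v' := fun x => ψ x - I * θ x) (fun x _ => hasDerivAt_id x)
        (fun x _ => by
          have := hη1.hasDerivAt x
          rw [hη1d] at this
          exact this)
        ((continuous_id.mul h1.continuous).integrable_of_hasCompactSupport (h1.cpt.mul_left))
        ((continuous_const.mul hη1.continuous).integrable_of_hasCompactSupport (hη1.cpt.mul_left))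
        ((continuous_id.mul hη1.continuous).integrable_of_hasCompactSupport (hη1.cpt.mul_left))
      have e : (fun x : ℝ => x * (ψ x - I * θ x)) = fun x => x * ψ x - I * (x * θ x) := by
        funext x; ring
      rw [e, integral_sub i4 (i5.const_mul I), integral_const_mul] at ip
      simp only [one_mul] at ip
      rw [← hJ] at ip
      linarith
    have i13 : Integrable (fun x => ψ x * v x - (α + β * τ) * ψ x) :=
      i1.sub (hψ.integrable.const_mul _)
    have e : (fun x => ψ x • (v x - ((α + β * τ) + (-β) * x)))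
        = fun x => (ψ x * v x - (α + β * τ) * ψ x) + β * (x * ψ x) := by
      funext x
      simp only [smul_eq_mul]
      ring
    rw [e, integral_add i13 (i4.const_mul β),
      integral_sub i1 (hψ.integrable.const_mul _), integral_const_mul, integral_const_mul, key2,
      ← hI, hJ2]
    ring
  filter_upwards [hfin] with x hx hxa
  have := hx hxa
  linarith

/-- A locally integrable weak solution of `w'' = h` on `(a, ∞)` is almost everywhere a `C¹`
function whose derivative is a primitive of `h`. -/
theorem weak_ode {a : ℝ} {w h : ℝ → ℝ} (hw : LocallyIntegrableOn w (Ioi a))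
    (hh : LocallyIntegrableOn h (Ioi a))
    (H : ∀ η, TestOn a η → ∫ x, deriv (deriv η) x * w x = ∫ x, η x * h x) :
    ∃ W W1 : ℝ → ℝ, (∀ r, a < r → HasDerivAt W (W1 r) r) ∧
      ContinuousOn W1 (Ioi a) ∧
      (∀ r r', a < r → r ≤ r' → W1 r' - W1 r = ∫ t in r..r', h t) ∧
      (∀ᵐ r, a < r → w r = W r) := by
  set b := a + 1 with hb
  have hab : a < b := by linarith
  have hii : ∀ r r', a < r → a < r' → IntervalIntegrable h volume r r' := by
    intro r r' hr hr'
    rw [intervalIntegrable_iff]
    refine (hh.integrableOn_compact_subset ?_ isCompact_uIcc).mono_set uIoc_subset_uIcc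
    intro x hx
    exact lt_of_lt_of_le (lt_min hr hr') hx.1
  set H1 : ℝ → ℝ := fun r => ∫ t in b..r, h t with hH1
  have H1diff : ∀ r r', a < r → a < r' → H1 r' = H1 r + ∫ t in r..r', h t := by
    intro r r' hr hr'
    simp only [hH1]
    rw [intervalIntegral.integral_add_adjacent_intervals (hii b r hab hr) (hii r r' hr hr')]
  have H1c : ContinuousOn H1 (Ioi a) := by
    intro r hr
    have h1 : ContinuousWithinAt H1 (Icc ((a + r) / 2) (r + 1)) r := by
      have h2 := intervalIntegral.continuousOn_primitive_interval' (μ := volume) (f := h)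
        (b₁ := (a + r) / 2) (b₂ := r + 1) (a := r)
        (hii _ _ (by simp only [mem_Ioi] at hr; linarith) (by simp only [mem_Ioi] at hr; linarith))
        (by rw [uIcc_of_le (by simp only [mem_Ioi] at hr; linarith)]
            simp only [mem_Ioi] at hr
            constructor <;> linarith)
      rw [uIcc_of_le (by simp only [mem_Ioi] at hr; linarith)] at h2
      have h3 : ContinuousWithinAt (fun x => H1 r + ∫ t in r..x, h t) (Icc ((a + r) / 2) (r + 1)) r :=
        continuousWithinAt_const.add (h2 r (by simp only [mem_Ioi] at hr; constructor <;> linarith))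
      refine h3.congr (fun x hx => ?_) (by simp)
      exact H1diff r x hr (by simp only [mem_Ioi] at hr; linarith [hx.1])
    have h4 : Icc ((a + r) / 2) (r + 1) ∈ 𝓝 r :=
      Icc_mem_nhds (by simp only [mem_Ioi] at hr; linarith) (by linarith)
    exact (h1.continuousAt h4).continuousWithinAt
  set H2 : ℝ → ℝ := fun r => ∫ t in b..r, H1 t with hH2
  have hii2 : ∀ r r', a < r → a < r' → IntervalIntegrable H1 volume r r' := by
    intro r r' hr hr'
    refine (H1c.mono ?_).intervalIntegrable
    intro x hx
    exact lt_of_lt_of_le (lt_min hr hr') hx.1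
  have H2d : ∀ r, a < r → HasDerivAt H2 (H1 r) r := by
    intro r hr
    refine intervalIntegral.integral_hasDerivAt_right (hii2 b r hab hr) ?_
      (H1c.continuousAt (Ioi_mem_nhds hr))
    exact H1c.stronglyMeasurableAtFilter isOpen_Ioi r hr
  have H2c : ContinuousOn H2 (Ioi a) := fun r hr =>
    (H2d r hr).continuousAt.continuousWithinAt
  -- `H2` is a weak solution
  have Hweak : ∀ η, TestOn a η → ∫ x, deriv (deriv η) x * H2 x = ∫ x, η x * h x := by
    intro η hη
    obtain ⟨c, d, hac, hcd, hz⟩ := hη.exists_Ioo
    obtain ⟨c', d', hac', hcd', hsub⟩ := exists_Ioo_of_compact hη.cpt hη.supp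
    have z0 : ∀ x, x ∉ Ioo c' d' → η x = 0 := by
      intro x hx
      by_contra hne
      exact hx (hsub (subset_tsupport η (Function.mem_support.2 hne)))
    have z1 : ∀ x, x ∉ Ioo c' d' → deriv η x = 0 := by
      intro x hx
      by_contra hne
      exact hx (hsub ((tsupport_deriv_subset (𝕜 := ℝ)) (subset_tsupport _ (Function.mem_support.2 hne))))
    have z2 : ∀ x, x ∉ Ioo c' d' → deriv (deriv η) x = 0 := by
      intro x hx
      by_contra hne
      exact hx (hsub ((tsupport_deriv_subset (𝕜 := ℝ)) ((tsupport_deriv_subset (𝕜 := ℝ))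
        (subset_tsupport _ (Function.mem_support.2 hne)))))
    have to_int : ∀ f : ℝ → ℝ, (∀ x, x ∉ Ioo c' d' → f x = 0) → ∫ x, f x = ∫ x in c'..d', f x := by
      intro f hf
      rw [intervalIntegral.integral_of_le hcd'.le]
      refine (setIntegral_eq_integral_of_forall_compl_eq_zero fun x hx => ?_).symm
      exact hf x fun h' => hx ⟨h'.1, h'.2.le⟩
    rw [to_int _ (fun x hx => by rw [z2 x hx, zero_mul]), to_int _ (fun x hx => by rw [z0 x hx, zero_mul])]
    have k1 := prim_mul (h := h) (g := η) (g1 := deriv η) (a := c') (b := d') (H1 c') hcd'.le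
      (hii c' d' hac' (hac'.trans hcd')) (fun x _ => hη.hasDerivAt x)
      hη.deriv.continuous.continuousOn
    have k2 := prim_mul (h := H1) (g := deriv η) (g1 := deriv (deriv η)) (a := c') (b := d') (H2 c')
      hcd'.le (hii2 c' d' hac' (hac'.trans hcd')) (fun x _ => hη.deriv.hasDerivAt x)
      hη.deriv.deriv.continuous.continuousOn
    have e1 : ∫ x in c'..d', (h x * η x + (H1 c' + ∫ t in c'..x, h t) * deriv η x)
        = (∫ x in c'..d', η x * h x) + ∫ x in c'..d', deriv η x * H1 x := by
      rw [← intervalIntegral.integral_add]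
      · refine intervalIntegral.integral_congr fun x hx => ?_
        rw [uIcc_of_le hcd'.le] at hx
        rw [← H1diff c' x hac' (hac'.trans_le hx.1)]
        ring
      · exact (hii c' d' hac' (hac'.trans hcd')).continuousOn_mul hη.continuous.continuousOn
      · exact (hii2 c' d' hac' (hac'.trans hcd')).continuousOn_mul hη.deriv.continuous.continuousOn
    have e2 : ∫ x in c'..d', (H1 x * deriv η x + (H2 c' + ∫ t in c'..x, H1 t) * deriv (deriv η) x)
        = (∫ x in c'..d', deriv η x * H1 x) + ∫ x in c'..d', deriv (deriv η) x * H2 x := by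
      rw [← intervalIntegral.integral_add]
      · refine intervalIntegral.integral_congr fun x hx => ?_
        rw [uIcc_of_le hcd'.le] at hx
        have : H2 x = H2 c' + ∫ t in c'..x, H1 t := by
          simp only [hH2]
          rw [intervalIntegral.integral_add_adjacent_intervals (hii2 b c' hab hac')
            (hii2 c' x hac' (hac'.trans_le hx.1))]
        rw [← this]
        ring
      · exact (hii2 c' d' hac' (hac'.trans hcd')).continuousOn_mul hη.deriv.continuous.continuousOn
      · refine ContinuousOn.intervalIntegrable ?_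
        refine hη.deriv.deriv.continuous.continuousOn.mul (H2c.mono ?_)
        intro x hx
        rw [uIcc_of_le hcd'.le] at hx
        exact hac'.trans_le hx.1
    rw [e1] at k1
    rw [e2] at k2
    rw [z0 c' (fun h' => lt_irrefl _ h'.1), z0 d' (fun h' => lt_irrefl _ h'.2)] at k1
    rw [z1 c' (fun h' => lt_irrefl _ h'.1), z1 d' (fun h' => lt_irrefl _ h'.2)] at k2
    linarith
  have hH2li : LocallyIntegrableOn H2 (Ioi a) :=
    H2c.locallyIntegrableOn measurableSet_Ioi
  obtain ⟨A, B, hAB⟩ := affine_of_weak (v := fun x => w x - H2 x) (hw.sub hH2li) (by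
    intro η hη
    have j1 := LocallyIntegrableOn.integrable_testOn hw hη.deriv.deriv
    have j2 := LocallyIntegrableOn.integrable_testOn hH2li hη.deriv.deriv
    simp only [mul_sub]
    rw [integral_sub j1 j2, H η hη, Hweak η hη, sub_self])
  refine ⟨fun r => H2 r + (A + B * r), fun r => H1 r + B, ?_, ?_, ?_, ?_⟩
  · intro r hr
    have h1 : HasDerivAt (fun r => A + B * r) B r := by
      simpa using ((hasDerivAt_id r).const_mul B).const_add A
    exact (H2d r hr).add h1
  · exact H1c.add continuousOn_const
  · intro r r' hr hrr'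
    have := H1diff r r' hr (hr.trans_le hrr')
    simp only
    rw [this]
    ring
  · filter_upwards [hAB] with r hr har
    have := hr har
    linarith

end

end Vale.Agent.P363.B5
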