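import Vale.Agent.P363.Stmt

/-! Integration in polar coordinates on `R3` for general functions. -/

namespace Vale.Agent.P363.B5

open MeasureTheory Set Filter Topology Metric
open Vale.Agent.P363.Stmt
open scoped ContDiff

noncomputable section

/-- The unit sphere of `R3`. -/
abbrev S2 : Type := sphere (0 : R3) 1

/-- The surface measure. -/
def sig : Measure S2 := (volume : Measure R3).toSphere

instance : IsFiniteMeasure sig := by unfold sig; infer_instance

instance : sig.IsOpenPosMeasure := by unfold sig; infer_instance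

/-- The integral over the sphere of radius `r` (without the factor `r²`). -/
def Sph (f : R3 → ℝ) (r : ℝ) : ℝ := ∫ u : S2, f (r • (u : R3)) ∂sig

/-- The map of polar coordinates. -/
def pol (p : S2 × Ioi (0 : ℝ)) : R3 := (p.2 : ℝ) • (p.1 : R3)

theorem measurable_pol : Measurable pol :=
  ((continuous_subtype_val.comp continuous_snd).smul
    (continuous_subtype_val.comp continuous_fst)).measurable

/-- The radial measure `r² dr`. -/
def rad : Measure (Ioi (0 : ℝ)) := Measure.volumeIoiPow 2

instance : SigmaFinite rad := by unfold rad; infer_instance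

theorem mp_hom : MeasurePreserving (homeomorphUnitSphereProd R3)
    ((volume : Measure R3).comap (↑)) (sig.prod rad) := by
  have h := (volume : Measure R3).measurePreserving_homeomorphUnitSphereProd
  have hd : Module.finrank ℝ R3 - 1 = 2 := by simp
  rw [hd] at h
  exact h

theorem pol_hom (x : ({0}ᶜ : Set R3)) : pol (homeomorphUnitSphereProd R3 x) = x := by
  have h : ((homeomorphUnitSphereProd R3).symm (homeomorphUnitSphereProd R3 x) : R3) = x := by
    rw [Homeomorph.symm_apply_apply]
  rw [homeomorphUnitSphereProd_symm_apply_coe] at h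
  exact h

/-- polar coordinates: almost everywhere statements. -/
theorem ae_pol {P : R3 → Prop} (h : ∀ᵐ x, P x) : ∀ᵐ p ∂(sig.prod rad), P (pol p) := by
  have h1 : ∀ᵐ x : ({0}ᶜ : Set R3) ∂((volume : Measure R3).comap (↑)), P x := by
    have h2 : MeasurableEmbedding ((↑) : ({0}ᶜ : Set R3) → R3) :=
      MeasurableEmbedding.subtype_coe (measurableSet_singleton _).compl
    have h3 := h2.ae_map_iff (μ := (volume : Measure R3).comap (↑)) (p := P)
    rw [← h3, h2.map_comap]
    exact ae_restrict_of_ae h
  have h4 := mp_hom.aestronglyMeasurable_comp_iff (homeomorphUnitSphereProd R3).measurableEmbedding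
    (g := (fun _ : S2 × Ioi (0 : ℝ) => (0 : ℝ)))
  rw [← mp_hom.map_eq, (homeomorphUnitSphereProd R3).measurableEmbedding.ae_map_iff]
  filter_upwards [h1] with x hx
  rw [pol_hom]
  exact hx

theorem integrable_pol {f : R3 → ℝ} (hf : Integrable f) :
    Integrable (fun p => f (pol p)) (sig.prod rad) := by
  rw [← mp_hom.integrable_comp_emb (homeomorphUnitSphereProd R3).measurableEmbedding]
  have h1 : (fun p => f (pol p)) ∘ (homeomorphUnitSphereProd R3) = f ∘ ((↑) : ({0}ᶜ : Set R3) → R3) := by
    funext x
    simp only [Function.comp_apply, pol_hom]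
  rw [h1]
  have h2 : MeasurableEmbedding ((↑) : ({0}ᶜ : Set R3) → R3) :=
    MeasurableEmbedding.subtype_coe (measurableSet_singleton _).compl
  rw [← h2.integrable_map_iff, h2.map_comap]
  exact hf.restrict

theorem integral_pol (f : R3 → ℝ) : ∫ x, f x = ∫ p, f (pol p) ∂(sig.prod rad) := by
  rw [← mp_hom.integral_comp (homeomorphUnitSphereProd R3).measurableEmbedding]
  simp only [pol_hom]
  rw [integral_subtype_comap (measurableSet_singleton _).compl, restrict_compl_singleton]

/-- An integral against `rad`. -/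
theorem integral_rad (g : ℝ → ℝ) : ∫ r, g r ∂rad = ∫ r in Ioi (0 : ℝ), r ^ 2 * g r := by
  simp only [rad, Measure.volumeIoiPow, ENNReal.ofReal]
  rw [integral_withDensity_eq_integral_smul,
    integral_subtype_comap measurableSet_Ioi fun a ↦ Real.toNNReal (a ^ 2) • g a,
    setIntegral_congr_fun measurableSet_Ioi fun x hx ↦ ?_]
  · rw [NNReal.smul_def, Real.coe_toNNReal _ (pow_nonneg hx.out.le _), smul_eq_mul]
  · exact (measurable_subtype_coe.pow_const _).real_toNNReal

theorem integrable_rad {g : ℝ → ℝ} :
    Integrable (fun r : Ioi (0 : ℝ) => g r) rad ↔ IntegrableOn (fun r => r ^ 2 * g r) (Ioi 0) := by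
  rw [integrableOn_iff_comap_subtypeVal measurableSet_Ioi, rad, Measure.volumeIoiPow,
    integrable_withDensity_iff_integrable_smul', integrable_congr]
  · refine .of_forall ?_
    rintro ⟨x, hx : 0 < x⟩
    simp (disch := positivity) [ENNReal.toReal_ofReal]
  · fun_prop
  · simp

/-- almost everywhere statements on `Ioi 0`. -/
theorem ae_rad {P : ℝ → Prop} : (∀ᵐ r : Ioi (0 : ℝ) ∂rad, P r) ↔ ∀ᵐ r : ℝ, 0 < r → P r := by
  have h2 : MeasurableEmbedding ((↑) : Ioi (0 : ℝ) → ℝ) :=
    MeasurableEmbedding.subtype_coe measurableSet_Ioi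
  have h3 := h2.ae_map_iff (μ := (volume : Measure ℝ).comap (↑)) (p := P)
  rw [h2.map_comap, Subtype.range_coe] at h3
  have h4 : (∀ᵐ r : ℝ, 0 < r → P r) ↔ ∀ᵐ (x : ℝ) ∂volume.restrict (Ioi 0), P x :=
    (ae_restrict_iff' measurableSet_Ioi).symm
  rw [h4, h3, rad, Measure.volumeIoiPow, ae_withDensity_iff (by fun_prop)]
  refine eventually_congr (Eventually.of_forall fun x => ?_)
  have hx : ENNReal.ofReal ((x : ℝ) ^ 2) ≠ 0 := by
    have := x.2
    simp only [mem_Ioi] at this
    simp only [ne_eq, ENNReal.ofReal_eq_zero, not_le]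
    positivity
  exact ⟨fun h => h hx, fun h _ => h⟩

/-- polar coordinates: almost everywhere statements, iterated form. -/
theorem ae_polar {P : R3 → Prop} (h : ∀ᵐ x, P x) :
    ∀ᵐ r : ℝ, 0 < r → ∀ᵐ u : S2 ∂sig, P (r • (u : R3)) := by
  rw [← ae_rad (P := fun r => ∀ᵐ u : S2 ∂sig, P (r • (u : R3)))]
  have h1 := ae_pol h
  have h2 : ∀ᵐ p ∂(rad.prod sig), P (pol p.swap) := by
    have := (Measure.measurePreserving_swap (μ := rad) (ν := sig)).quasiMeasurePreserving.ae h1
    exact this
  exact Measure.ae_ae_of_ae_prod h2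

/-- Polar coordinates. -/
theorem integral_polar {f : R3 → ℝ} (hf : Integrable f) :
    IntegrableOn (fun r => r ^ 2 * Sph f r) (Ioi 0) ∧
      ∫ x, f x = ∫ r in Ioi (0 : ℝ), r ^ 2 * Sph f r := by
  have h1 := integrable_pol hf
  constructor
  · rw [← integrable_rad]
    exact h1.integral_prod_right
  · rw [integral_pol, integral_prod_symm _ h1, ← integral_rad]
    rfl

/-- For almost every radius, an integrable function is integrable on the sphere. -/
theorem ae_integrable_sph {f : R3 → ℝ} (hf : Integrable f) :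
    ∀ᵐ r : ℝ, 0 < r → Integrable (fun u : S2 => f (r • (u : R3))) sig := by
  rw [← ae_rad (P := fun r => Integrable (fun u : S2 => f (r • (u : R3))) sig)]
  exact (integrable_pol hf).prod_left_ae

end

end Vale.Agent.P363.B5
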