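import Vale.Agent.P363.R.B5.Defs

/-! The scalar end of the `Q`-channel estimate. -/

namespace Vale.Agent.P363.B5

open MeasureTheory Set Filter Topology Metric
open Vale.Agent.P363.Stmt
open Vale.Agent.P363.R.Sob
open Vale.Agent.P363.R.Top
open scoped ContDiff ComplexConjugate Interval

noncomputable section

/-- `√(1+‖x-p‖²)` -/
def jap (p x : R3) : ℝ := Real.sqrt (1 + ‖x - p‖ ^ 2)

theorem jap_pos (p x : R3) : 0 < jap p x := Real.sqrt_pos.2 (by positivity)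

theorem le_jap (p x : R3) : ‖x - p‖ ≤ jap p x := by
  rw [jap]
  exact Real.le_sqrt_of_sq_le (by linarith)

theorem contDiff_jap (p : R3) : ContDiff ℝ ∞ (jap p) := by
  unfold jap
  refine ContDiff.sqrt ?_ fun x => by positivity
  exact contDiff_const.add ((contDiff_norm_sq ℝ).comp (contDiff_id.sub contDiff_const))

theorem fderiv_jap (p x v : R3) : fderiv ℝ (jap p) x v = inner ℝ (x - p) v / jap p x := by
  have h1 : HasFDerivAt (fun x : R3 => 1 + ‖x - p‖ ^ 2) (2 • (innerSL ℝ (x - p))) x := by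
    have h0 := (hasStrictFDerivAt_norm_sq (x - p)).hasFDerivAt
    have h2 : HasFDerivAt (fun x : R3 => x - p) (ContinuousLinearMap.id ℝ R3) x :=
      (hasFDerivAt_id x).sub_const p
    have h3 := (h0.comp x h2).const_add 1
    simpa using h3
  have h4 : HasFDerivAt (jap p) _ x := h1.sqrt (by positivity)
  rw [h4.fderiv]
  simp only [smul_apply, two_smul, add_apply, innerSL_apply_apply, smul_eq_mul, jap]
  field_simp
  ring

/-- the decaying weight -/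
def Ew (k' : ℝ) (p x : R3) : ℝ := Real.exp (-k' * jap p x)

theorem Ew_pos (k' : ℝ) (p x : R3) : 0 < Ew k' p x := Real.exp_pos _

theorem contDiff_Ew (k' : ℝ) (p : R3) : ContDiff ℝ ∞ (Ew k' p) := by
  unfold Ew
  exact (contDiff_const.mul (contDiff_jap p)).exp

theorem fderiv_Ew (k' : ℝ) (p x v : R3) :
    fderiv ℝ (Ew k' p) x v = -k' * (inner ℝ (x - p) v / jap p x) * Ew k' p x := by
  have h1 : HasFDerivAt (jap p) (fderiv ℝ (jap p) x) x :=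
    ((contDiff_jap p).differentiable (by simp) x).hasFDerivAt
  have h2 : HasFDerivAt (Ew k' p) _ x := (h1.const_mul (-k')).exp
  rw [h2.fderiv]
  simp only [smul_apply, smul_eq_mul, fderiv_jap, Ew]
  ring

theorem sum_inner_sq (y : R3) : ∑ j, (inner ℝ y (ev j)) ^ 2 = ‖y‖ ^ 2 := by
  have : ∀ j, inner ℝ y (ev j) = y j := fun j => inner_ev y j
  simp only [this, norm_sq_eq3, Fin.sum_univ_three]

/-- the cutoff: `0` for `‖x‖ ≤ R`, `1` for `‖x‖ ≥ R+1`. -/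
def cut0 (R : ℝ) (x : R3) : ℝ := Real.smoothTransition (‖x‖ ^ 2 - R ^ 2)

theorem contDiff_cut0 (R : ℝ) : ContDiff ℝ ∞ (cut0 R) := by
  unfold cut0
  exact Real.smoothTransition.contDiff.comp ((contDiff_norm_sq ℝ).sub contDiff_const)

theorem cut0_zero {R : ℝ} {x : R3} (hR : 0 ≤ R) (h : ‖x‖ ≤ R) : cut0 R x = 0 := by
  refine Real.smoothTransition.zero_of_nonpos ?_
  nlinarith [norm_nonneg x]

theorem cut0_one {R : ℝ} {x : R3} (hR : 0 ≤ R) (h : R + 1 ≤ ‖x‖) : cut0 R x = 1 := by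
  refine Real.smoothTransition.one_of_one_le ?_
  nlinarith [norm_nonneg x]

theorem cut0_nonneg (R : ℝ) (x : R3) : 0 ≤ cut0 R x := Real.smoothTransition.nonneg _

theorem cut0_le (R : ℝ) (x : R3) : cut0 R x ≤ 1 := Real.smoothTransition.le_one _

theorem fderiv_cut0_zero {R : ℝ} {x : R3} (hR : 0 ≤ R) (h : R + 1 < ‖x‖) : fderiv ℝ (cut0 R) x = 0 := by
  have h1 : cut0 R =ᶠ[𝓝 x] fun _ => 1 := by
    filter_upwards [(isOpen_lt continuous_const continuous_norm).mem_nhds h] with y hy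
    exact cut0_one hR (le_of_lt hy)
  rw [h1.fderiv_eq]
  simp

theorem fderiv_cut0_zero' {R : ℝ} {x : R3} (hR : 0 ≤ R) (h : ‖x‖ < R) : fderiv ℝ (cut0 R) x = 0 := by
  have h1 : cut0 R =ᶠ[𝓝 x] fun _ => 0 := by
    filter_upwards [(isOpen_lt continuous_norm continuous_const).mem_nhds h] with y hy
    exact cut0_zero hR (le_of_lt hy)
  rw [h1.fderiv_eq]
  simp

theorem exists_bound_cut0 (R : ℝ) (hR : 0 ≤ R) : ∃ M, 0 ≤ M ∧ ∀ x, ‖fderiv ℝ (cut0 R) x‖ ≤ M := by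
  have hc : Continuous (fderiv ℝ (cut0 R)) := (contDiff_cut0 R).continuous_fderiv (by simp)
  have hs : HasCompactSupport (fderiv ℝ (cut0 R)) := by
    refine HasCompactSupport.of_support_subset_isCompact (isCompact_closedBall (0 : R3) (R + 1)) ?_
    intro x hx
    rw [mem_closedBall_zero_iff]
    by_contra h
    exact hx (fderiv_cut0_zero hR (not_le.1 h))
  obtain ⟨M, hM⟩ := hc.bounded_above_of_compact_support hs
  exact ⟨M, (norm_nonneg _).trans (hM 0), hM⟩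

theorem one_add_pow_exp {b : ℝ} (hb : 0 < b) (m : ℕ) {r : ℝ} (hr : 0 ≤ r) :
    (1 + r) ^ m * Real.exp (-(2 * b * r)) ≤ (m.factorial : ℝ) * Real.exp (2 * b) / (2 * b) ^ m := by
  have h1 := Real.pow_div_factorial_le_exp (2 * b * (1 + r)) (by positivity) m
  rw [mul_pow, div_le_iff₀ (by positivity)] at h1
  rw [le_div_iff₀ (by positivity)]
  have e1 : Real.exp (2 * b * (1 + r)) * Real.exp (-(2 * b * r)) = Real.exp (2 * b) := by
    rw [← Real.exp_add]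
    ring_nf
  calc (1 + r) ^ m * Real.exp (-(2 * b * r)) * (2 * b) ^ m
      = ((2 * b) ^ m * (1 + r) ^ m) * Real.exp (-(2 * b * r)) := by ring
    _ ≤ (Real.exp (2 * b * (1 + r)) * (m.factorial : ℝ)) * Real.exp (-(2 * b * r)) := by gcongr
    _ = (m.factorial : ℝ) * (Real.exp (2 * b * (1 + r)) * Real.exp (-(2 * b * r))) := by ring
    _ = (m.factorial : ℝ) * Real.exp (2 * b) := by rw [e1]

/-- the weight of the convolution estimate -/
def Wt0 (b : ℝ) (y : R3) : ℝ := Real.exp (-(2 * b * ‖y‖)) * (1 + ‖y‖) ^ 16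

theorem integrable_Wt0 {b : ℝ} (hb : 0 < b) : Integrable (Wt0 b) := by
  have h1 : Integrable (fun x : R3 => (1 + ‖x‖) ^ (-(4 : ℝ))) := by
    refine integrable_one_add_norm ?_
    simp
    norm_num
  refine Integrable.mono' (h1.const_mul (((20 : ℕ).factorial : ℝ) * Real.exp (2 * b) / (2 * b) ^ 20)) ?_ ?_
  · exact (by unfold Wt0; fun_prop : Continuous (Wt0 b)).aestronglyMeasurable
  · refine Eventually.of_forall fun x => ?_
    have h0 : 0 < 1 + ‖x‖ := by positivity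
    rw [Wt0, Real.norm_of_nonneg (by positivity), Real.rpow_neg h0.le]
    have h3 : (1 + ‖x‖) ^ (4 : ℝ) = (1 + ‖x‖) ^ 4 := by
      rw [← Real.rpow_natCast]
      norm_num
    have h2 := one_add_pow_exp hb 20 (norm_nonneg x)
    rw [h3, ← div_eq_mul_inv, le_div_iff₀ (by positivity)]
    refine le_trans (le_of_eq ?_) h2
    ring

/-- comparison of `X⁻¹` at two points -/
theorem Xf_inv_le {k s r ρ t : ℝ} (hk : 0 ≤ k) (hs : 0 ≤ s) (hs3 : s ≤ 3) (hr : 1 ≤ r) (hρ : 1 ≤ ρ)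
    (ht : 0 ≤ t) (h1 : ρ ≤ r + t) (h2 : r ≤ ρ + t) :
    (Xf k s r)⁻¹ ≤ (Xf k s ρ)⁻¹ * (Real.exp (k * t) * (1 + t) ^ 3) := by
  have e0 : ∀ u, (Xf k s u)⁻¹ = Real.exp (-(k * u) + s * Real.log u) := by
    intro u
    rw [Xf, ← Real.exp_neg]
    ring_nf
  have e1 : (1 + t) ^ 3 = Real.exp (3 * Real.log (1 + t)) := by
    rw [mul_comm, Real.exp_mul, Real.exp_log (by linarith)]
    norm_cast
  rw [e0, e0, e1, ← Real.exp_add, ← Real.exp_add]
  refine Real.exp_le_exp.2 ?_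
  have h3 : Real.log r ≤ Real.log ρ + Real.log (1 + t) := by
    rw [← Real.log_mul (by linarith) (by linarith)]
    refine Real.log_le_log (by linarith) ?_
    nlinarith
  have h4 : 0 ≤ Real.log (1 + t) := Real.log_nonneg (by linarith)
  have h5 : s * Real.log r ≤ s * (Real.log ρ + Real.log (1 + t)) := by gcongr
  have h6 : s * Real.log (1 + t) ≤ 3 * Real.log (1 + t) := by gcongr
  have h7 : k * ρ ≤ k * (r + t) := by gcongr
  nlinarith

theorem weight_bound {k k' s : ℝ} (hk : 0 ≤ k) (hkk : k < k') (hs : 0 ≤ s) (hs3 : s ≤ 3) {p x : R3}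
    (hp2 : p 2 = 0) (hp : 1 ≤ ‖p‖) (hx : 1 ≤ ‖x‖) :
    Ew k' p x ^ 2 * (((Xf k s ‖x‖)⁻¹) ^ 2 * (x 2) ^ 2 / ‖x‖ ^ 8) ≤
      ((Xf k s ‖p‖)⁻¹) ^ 2 / ‖p‖ ^ 8 * Wt0 (k' - k) (x - p) := by
  set t := ‖x - p‖ with ht
  have ht0 : 0 ≤ t := norm_nonneg _
  have h1 : ‖p‖ ≤ ‖x‖ + t := by
    have := norm_sub_norm_le p x
    rw [norm_sub_rev] at this
    linarith
  have h2 : ‖x‖ ≤ ‖p‖ + t := by
    have := norm_sub_norm_le x p
    linarith
  have hXx := Xf_pos k s ‖x‖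
  have hXp := Xf_pos k s ‖p‖
  have b1 : ((Xf k s ‖x‖)⁻¹) ^ 2 ≤ ((Xf k s ‖p‖)⁻¹ * (Real.exp (k * t) * (1 + t) ^ 3)) ^ 2 :=
    pow_le_pow_left₀ (by positivity) (Xf_inv_le hk hs hs3 hx hp ht0 h1 h2) 2
  have b2 : (x 2) ^ 2 ≤ (1 + t) ^ 2 := by
    have e1 : |x 2| ≤ t := by
      have e2 : x 2 = (x - p) 2 := by simp [hp2]
      rw [e2, ht]
      have := norm_sq_eq3 (x - p)
      refine abs_le_of_sq_le_sq ?_ (norm_nonneg _)
      nlinarith [sq_nonneg ((x - p) 0), sq_nonneg ((x - p) 1)]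
    rw [← sq_abs]
    exact pow_le_pow_left₀ (abs_nonneg _) (by linarith) 2
  have b3 : 1 / ‖x‖ ^ 8 ≤ (1 + t) ^ 8 / ‖p‖ ^ 8 := by
    rw [div_le_div_iff₀ (by positivity) (by positivity), one_mul, ← mul_pow]
    refine pow_le_pow_left₀ (by positivity) ?_ 8
    nlinarith
  have b4 : Ew k' p x ^ 2 ≤ Real.exp (-(2 * k' * t)) := by
    rw [Ew, ← Real.exp_nat_mul]
    refine Real.exp_le_exp.2 ?_
    have := le_jap p x
    push_cast
    nlinarith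
  have e5 : Real.exp (-(2 * k' * t)) * Real.exp (k * t) ^ 2 = Real.exp (-(2 * (k' - k) * t)) := by
    rw [← Real.exp_nat_mul, ← Real.exp_add]
    push_cast
    ring_nf
  calc Ew k' p x ^ 2 * (((Xf k s ‖x‖)⁻¹) ^ 2 * (x 2) ^ 2 / ‖x‖ ^ 8)
      = Ew k' p x ^ 2 * (((Xf k s ‖x‖)⁻¹) ^ 2 * (x 2) ^ 2 * (1 / ‖x‖ ^ 8)) := by ring
    _ ≤ Real.exp (-(2 * k' * t)) * (((Xf k s ‖p‖)⁻¹ * (Real.exp (k * t) * (1 + t) ^ 3)) ^ 2
          * (1 + t) ^ 2 * ((1 + t) ^ 8 / ‖p‖ ^ 8)) := by gcongr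
    _ = ((Xf k s ‖p‖)⁻¹) ^ 2 / ‖p‖ ^ 8 * ((Real.exp (-(2 * k' * t)) * Real.exp (k * t) ^ 2)
          * (1 + t) ^ 16) := by ring
    _ = _ := by rw [e5, Wt0]

/-- the localisation function -/
def Gw (R0 k' : ℝ) (p x : R3) : ℝ := cut0 R0 x * Ew k' p x

theorem Ew_le_one {k' : ℝ} (hk' : 0 ≤ k') (p x : R3) : Ew k' p x ≤ 1 := by
  rw [Ew]
  refine Real.exp_le_one_iff.2 ?_
  have := jap_pos p x
  nlinarith

theorem contDiff_Gw (R0 k' : ℝ) (p : R3) : ContDiff ℝ ∞ (Gw R0 k' p) :=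
  (contDiff_cut0 R0).mul (contDiff_Ew k' p)

theorem sum_fderiv_Ew_le (k' : ℝ) (p x : R3) :
    ∑ j, (fderiv ℝ (Ew k' p) x (ev j)) ^ 2 ≤ k' ^ 2 * Ew k' p x ^ 2 := by
  have hj := jap_pos p x
  have e1 : ∑ j, (fderiv ℝ (Ew k' p) x (ev j)) ^ 2
      = k' ^ 2 * (‖x - p‖ ^ 2 / jap p x ^ 2) * Ew k' p x ^ 2 := by
    rw [← sum_inner_sq, Finset.sum_div, Finset.mul_sum, Finset.sum_mul]
    refine Finset.sum_congr rfl fun j _ => ?_
    rw [fderiv_Ew]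
    ring
  rw [e1]
  have e2 : ‖x - p‖ ^ 2 / jap p x ^ 2 ≤ 1 := by
    rw [div_le_one (by positivity)]
    exact pow_le_pow_left₀ (norm_nonneg _) (le_jap p x) 2
  calc k' ^ 2 * (‖x - p‖ ^ 2 / jap p x ^ 2) * Ew k' p x ^ 2 ≤ k' ^ 2 * 1 * Ew k' p x ^ 2 := by gcongr
    _ = _ := by ring

theorem fderiv_Gw (R0 k' : ℝ) (p x v : R3) : fderiv ℝ (Gw R0 k' p) x v =
    cut0 R0 x * fderiv ℝ (Ew k' p) x v + Ew k' p x * fderiv ℝ (cut0 R0) x v := by
  have a1 : HasFDerivAt (cut0 R0) (fderiv ℝ (cut0 R0) x) x :=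
    ((contDiff_cut0 R0).differentiable (by simp) x).hasFDerivAt
  have a2 : HasFDerivAt (Ew k' p) (fderiv ℝ (Ew k' p) x) x :=
    ((contDiff_Ew k' p).differentiable (by simp) x).hasFDerivAt
  have a3 : HasFDerivAt (Gw R0 k' p) _ x := a1.mul a2
  rw [a3.fderiv]
  simp only [add_apply, smul_apply, smul_eq_mul]

theorem abs_fderiv_cut0_le {R0 M : ℝ} (hM : ∀ x, ‖fderiv ℝ (cut0 R0) x‖ ≤ M) (x : R3) (j : Fin 3) :
    |fderiv ℝ (cut0 R0) x (ev j)| ≤ M := by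
  have hnev : ‖ev j‖ = 1 := by simp [ev]
  rw [← Real.norm_eq_abs]
  refine ((fderiv ℝ (cut0 R0) x).le_opNorm _).trans ?_
  rw [hnev, mul_one]
  exact hM x

theorem abs_fderiv_Ew_le {k' : ℝ} (hk' : 0 ≤ k') (p x : R3) (j : Fin 3) :
    |fderiv ℝ (Ew k' p) x (ev j)| ≤ k' := by
  refine abs_le_of_sq_le_sq ?_ hk'
  have e1 := sum_fderiv_Ew_le k' p x
  have e2 : (fderiv ℝ (Ew k' p) x (ev j)) ^ 2 ≤ ∑ i, (fderiv ℝ (Ew k' p) x (ev i)) ^ 2 :=
    Finset.single_le_sum (f := fun i => (fderiv ℝ (Ew k' p) x (ev i)) ^ 2) (fun i _ => sq_nonneg _)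
      (Finset.mem_univ j)
  have e3 : Ew k' p x ^ 2 ≤ 1 := pow_le_one₀ (Ew_pos k' p x).le (Ew_le_one hk' p x)
  nlinarith [sq_nonneg k']

theorem abs_Gw_le {R0 k' M : ℝ} (hk' : 0 ≤ k') (hM0 : 0 ≤ M) (p x : R3) :
    |Gw R0 k' p x| ≤ 1 + M + k' := by
  rw [Gw, abs_of_nonneg (mul_nonneg (cut0_nonneg R0 x) (Ew_pos k' p x).le)]
  have : cut0 R0 x * Ew k' p x ≤ 1 :=
    mul_le_one₀ (cut0_le R0 x) (Ew_pos k' p x).le (Ew_le_one hk' p x)
  linarith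

theorem abs_fderiv_Gw_le {R0 k' M : ℝ} (hk' : 0 ≤ k') (hM0 : 0 ≤ M)
    (hM : ∀ x, ‖fderiv ℝ (cut0 R0) x‖ ≤ M) (p x : R3) (j : Fin 3) :
    |fderiv ℝ (Gw R0 k' p) x (ev j)| ≤ 1 + M + k' := by
  rw [fderiv_Gw]
  have e1 : |cut0 R0 x * fderiv ℝ (Ew k' p) x (ev j)| ≤ k' := by
    rw [abs_mul, abs_of_nonneg (cut0_nonneg R0 x)]
    calc cut0 R0 x * |fderiv ℝ (Ew k' p) x (ev j)| ≤ 1 * k' := by
          gcongr
          · exact cut0_le R0 x
          · exact abs_fderiv_Ew_le hk' p x j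
      _ = k' := one_mul _
  have e2 : |Ew k' p x * fderiv ℝ (cut0 R0) x (ev j)| ≤ M := by
    rw [abs_mul, abs_of_pos (Ew_pos k' p x)]
    calc Ew k' p x * |fderiv ℝ (cut0 R0) x (ev j)| ≤ 1 * M := by
          gcongr
          · exact Ew_le_one hk' p x
          · exact abs_fderiv_cut0_le hM x j
      _ = M := one_mul _
  exact (abs_add_le _ _).trans (by linarith)

theorem Gw_zero {R0 k' : ℝ} (hR0 : 0 ≤ R0) {p x : R3} (hx : ‖x‖ ≤ R0) : Gw R0 k' p x = 0 := by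
  rw [Gw, cut0_zero hR0 hx, zero_mul]

theorem Gw_sq_le_Ew (R0 k' : ℝ) (p x : R3) : Gw R0 k' p x ^ 2 ≤ Ew k' p x ^ 2 := by
  rw [Gw, mul_pow]
  exact mul_le_of_le_one_left (sq_nonneg _) (pow_le_one₀ (cut0_nonneg R0 x) (cut0_le R0 x))

theorem sum_fderiv_Gw_le {R0 k' M : ℝ} (hR00 : 0 ≤ R0) (hk'0 : 0 ≤ k')
    (hM : ∀ x, ‖fderiv ℝ (cut0 R0) x‖ ≤ M) (p x : R3) :
    ∑ j, (fderiv ℝ (Gw R0 k' p) x (ev j)) ^ 2 ≤ k' ^ 2 * Gw R0 k' p x ^ 2 +
      (2 * k' ^ 2 + 6 * M ^ 2) * (Real.exp (2 * k' * (R0 + 1)) * Real.exp (-(2 * k' * ‖p‖))) := by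
  set e0 := Real.exp (2 * k' * (R0 + 1)) * Real.exp (-(2 * k' * ‖p‖)) with he0
  set cM := 2 * k' ^ 2 + 6 * M ^ 2 with hcM
  have hcM0 : 0 ≤ cM := by positivity
  have hce : 0 ≤ cM * e0 := by positivity
  by_cases h : R0 + 1 < ‖x‖
  · have e1 : ∀ j, fderiv ℝ (Gw R0 k' p) x (ev j) = cut0 R0 x * fderiv ℝ (Ew k' p) x (ev j) := by
      intro j
      rw [fderiv_Gw, fderiv_cut0_zero hR00 h]
      simp
    have e2 : ∑ j, (fderiv ℝ (Gw R0 k' p) x (ev j)) ^ 2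
        = cut0 R0 x ^ 2 * ∑ j, (fderiv ℝ (Ew k' p) x (ev j)) ^ 2 := by
      rw [Finset.mul_sum]
      refine Finset.sum_congr rfl fun j _ => ?_
      rw [e1, mul_pow]
    rw [e2]
    have e3 : cut0 R0 x ^ 2 * ∑ j, (fderiv ℝ (Ew k' p) x (ev j)) ^ 2
        ≤ cut0 R0 x ^ 2 * (k' ^ 2 * Ew k' p x ^ 2) := by
      gcongr
      exact sum_fderiv_Ew_le k' p x
    have e4 : cut0 R0 x ^ 2 * (k' ^ 2 * Ew k' p x ^ 2) = k' ^ 2 * Gw R0 k' p x ^ 2 := by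
      rw [Gw]
      ring
    linarith
  · have h : ‖x‖ ≤ R0 + 1 := not_lt.1 h
    have e1 : ∑ j, (fderiv ℝ (Gw R0 k' p) x (ev j)) ^ 2 ≤ cM * Ew k' p x ^ 2 := by
      have a1 : ∀ j, (fderiv ℝ (Gw R0 k' p) x (ev j)) ^ 2 ≤
          2 * (fderiv ℝ (Ew k' p) x (ev j)) ^ 2 + 2 * M ^ 2 * Ew k' p x ^ 2 := by
        intro j
        rw [fderiv_Gw]
        have a2 : (cut0 R0 x * fderiv ℝ (Ew k' p) x (ev j)) ^ 2 ≤ (fderiv ℝ (Ew k' p) x (ev j)) ^ 2 := by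
          rw [mul_pow]
          exact mul_le_of_le_one_left (sq_nonneg _) (pow_le_one₀ (cut0_nonneg R0 x) (cut0_le R0 x))
        have a3 : (Ew k' p x * fderiv ℝ (cut0 R0) x (ev j)) ^ 2 ≤ M ^ 2 * Ew k' p x ^ 2 := by
          rw [mul_pow, mul_comm]
          refine mul_le_mul_of_nonneg_right ?_ (sq_nonneg _)
          rw [← sq_abs]
          exact pow_le_pow_left₀ (abs_nonneg _) (abs_fderiv_cut0_le hM x j) 2
        nlinarith [sq_nonneg (cut0 R0 x * fderiv ℝ (Ew k' p) x (ev j)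
          - Ew k' p x * fderiv ℝ (cut0 R0) x (ev j))]
      calc ∑ j, (fderiv ℝ (Gw R0 k' p) x (ev j)) ^ 2
          ≤ ∑ j, (2 * (fderiv ℝ (Ew k' p) x (ev j)) ^ 2 + 2 * M ^ 2 * Ew k' p x ^ 2) :=
            Finset.sum_le_sum fun j _ => a1 j
        _ = 2 * (∑ j, (fderiv ℝ (Ew k' p) x (ev j)) ^ 2) + 3 * (2 * M ^ 2 * Ew k' p x ^ 2) := by
            rw [Finset.sum_add_distrib, Finset.mul_sum, Finset.sum_const, Finset.card_univ,
              Fintype.card_fin, nsmul_eq_mul]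
            norm_num
        _ ≤ 2 * (k' ^ 2 * Ew k' p x ^ 2) + 3 * (2 * M ^ 2 * Ew k' p x ^ 2) := by
            have := sum_fderiv_Ew_le k' p x
            linarith
        _ = cM * Ew k' p x ^ 2 := by rw [hcM]; ring
    have e2 : Ew k' p x ^ 2 ≤ e0 := by
      rw [Ew, he0, ← Real.exp_nat_mul, ← Real.exp_add]
      refine Real.exp_le_exp.2 ?_
      have a1 := le_jap p x
      have a2 : ‖p‖ - ‖x‖ ≤ ‖x - p‖ := by
        have := norm_sub_norm_le p x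
        rw [norm_sub_rev] at this
        exact this
      push_cast
      have a3 : ‖p‖ - (R0 + 1) ≤ jap p x := by linarith
      nlinarith
    have e3 : cM * Ew k' p x ^ 2 ≤ cM * e0 := by gcongr
    have e4 : 0 ≤ k' ^ 2 * Gw R0 k' p x ^ 2 := by positivity
    linarith

/-- the source term -/
theorem source_le {k k' s c1 C1 R R0 : ℝ} (hk : 0 ≤ k) (hkk : k < k') (hs : 0 ≤ s) (hs' : s ≤ 3)
    {d : R3 → ℂ} (h1 : TwoSided k s c1 C1 R d) (hR0R : R ≤ R0) (hR01 : 1 ≤ R0) {p : R3}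
    (hp2 : p 2 = 0) (hp1 : 1 ≤ ‖p‖) :
    ∫ x, Gw R0 k' p x ^ 2 * (5 * ‖d x‖ ^ 2 / ‖x‖ ^ 4) ≤
      5 * C1 ^ 2 * (∫ y, Wt0 (k' - k) y) * (((Xf k s ‖p‖)⁻¹) ^ 2 / ‖p‖ ^ 8) := by
  have hXp := Xf_pos k s ‖p‖
  set Q := ((Xf k s ‖p‖)⁻¹) ^ 2 / ‖p‖ ^ 8 with hQ
  have hQ0 : 0 ≤ Q := by positivity
  have hWi : Integrable (fun x => Wt0 (k' - k) (x - p)) :=
    (integrable_Wt0 (sub_pos.2 hkk)).comp_sub_right p
  have e1 : 5 * C1 ^ 2 * (∫ y, Wt0 (k' - k) y) * Q = ∫ x, 5 * C1 ^ 2 * Q * Wt0 (k' - k) (x - p) := by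
    rw [integral_const_mul, integral_sub_right_eq_self (fun x => Wt0 (k' - k) x) p]
    ring
  rw [e1]
  refine integral_mono_of_nonneg (Eventually.of_forall fun x => by positivity)
    (hWi.const_mul _) ?_
  filter_upwards [h1.upper] with x hx
  by_cases h : ‖x‖ ≤ R0
  · rw [Gw_zero (by linarith) h]
    have : 0 ≤ Wt0 (k' - k) (x - p) := by unfold Wt0; positivity
    simp only [ne_eq, OfNat.ofNat_ne_zero, not_false_eq_true, zero_pow, zero_mul]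
    positivity
  · have h : R0 < ‖x‖ := not_le.1 h
    have h3 : 0 < ‖x‖ := by linarith
    have h4 := hx (hR0R.trans h.le)
    have hXx := Xf_pos k s ‖x‖
    have h5 : ‖d x‖ ^ 2 ≤ C1 ^ 2 * (((Xf k s ‖x‖)⁻¹) ^ 2 * (x 2) ^ 2 / ‖x‖ ^ 4) := by
      have := pow_le_pow_left₀ (norm_nonneg _) h4 2
      refine this.trans (le_of_eq ?_)
      rw [mul_pow, div_pow, mul_pow, sq_abs]
      ring
    have h6 := weight_bound (k := k) (k' := k') (s := s) hk hkk hs hs'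
      hp2 hp1 (by linarith : (1 : ℝ) ≤ ‖x‖)
    have h7 := Gw_sq_le_Ew R0 k' p x
    calc Gw R0 k' p x ^ 2 * (5 * ‖d x‖ ^ 2 / ‖x‖ ^ 4)
        ≤ Ew k' p x ^ 2 * (5 * (C1 ^ 2 * (((Xf k s ‖x‖)⁻¹) ^ 2 * (x 2) ^ 2 / ‖x‖ ^ 4)) / ‖x‖ ^ 4) := by
          gcongr
      _ = 5 * C1 ^ 2 * (Ew k' p x ^ 2 * (((Xf k s ‖x‖)⁻¹) ^ 2 * (x 2) ^ 2 / ‖x‖ ^ 8)) := by
          field_simp
      _ ≤ 5 * C1 ^ 2 * (Q * Wt0 (k' - k) (x - p)) := by gcongr
      _ = 5 * C1 ^ 2 * Q * Wt0 (k' - k) (x - p) := by ring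

theorem exp_le_Q {k k' s ρ : ℝ} (hkk : k < k') (hs : 0 ≤ s) (hp1 : 1 ≤ ρ) :
    Real.exp (-(2 * k' * ρ)) ≤ (((8 : ℕ).factorial : ℝ) * Real.exp (2 * (k' - k)) / (2 * (k' - k)) ^ 8)
      * (((Xf k s ρ)⁻¹) ^ 2 / ρ ^ 8) := by
  have a1 := one_add_pow_exp (sub_pos.2 hkk) 8 (by linarith : (0 : ℝ) ≤ ρ)
  set C2 := ((8 : ℕ).factorial : ℝ) * Real.exp (2 * (k' - k)) / (2 * (k' - k)) ^ 8 with hC2
  have a2 : ρ ^ 8 ≤ (1 + ρ) ^ 8 := pow_le_pow_left₀ (by linarith) (by linarith) 8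
  have a3 : ρ ^ 8 * Real.exp (-(2 * (k' - k) * ρ)) ≤ C2 :=
    (mul_le_mul_of_nonneg_right a2 (Real.exp_pos _).le).trans a1
  have a4 : Real.exp (-(2 * k * ρ)) ≤ ((Xf k s ρ)⁻¹) ^ 2 := by
    rw [Xf, ← Real.exp_neg, ← Real.exp_nat_mul]
    refine Real.exp_le_exp.2 ?_
    have := Real.log_nonneg hp1
    push_cast
    nlinarith
  have a5 : Real.exp (-(2 * k' * ρ)) = Real.exp (-(2 * (k' - k) * ρ)) * Real.exp (-(2 * k * ρ)) := by
    rw [← Real.exp_add]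
    ring_nf
  have hρ8 : 0 < ρ ^ 8 := by positivity
  rw [mul_div_assoc', le_div_iff₀ hρ8, a5]
  have hC20 : 0 ≤ C2 := le_trans (by positivity) a3
  calc Real.exp (-(2 * (k' - k) * ρ)) * Real.exp (-(2 * k * ρ)) * ρ ^ 8
      = (ρ ^ 8 * Real.exp (-(2 * (k' - k) * ρ))) * Real.exp (-(2 * k * ρ)) := by ring
    _ ≤ C2 * ((Xf k s ρ)⁻¹) ^ 2 := by gcongr

/-- the ball -/
theorem ball_le {R0 k' : ℝ} (hR0 : 0 ≤ R0) (hk'0 : 0 ≤ k') {p : R3} (hp : R0 + 3 ≤ ‖p‖) {N : R3 → ℝ}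
    (hN0 : ∀ᵐ x, 0 ≤ N x) (hNi : Integrable N) (iG : Integrable fun x => Gw R0 k' p x ^ 2 * N x) :
    ∫ x in ball p 2, N x ≤ Real.exp (6 * k') * ∫ x, Gw R0 k' p x ^ 2 * N x := by
  rw [← integral_const_mul]
  have i1 : Integrable (fun x => Real.exp (6 * k') * (Gw R0 k' p x ^ 2 * N x)) := iG.const_mul _
  refine le_trans ?_ (setIntegral_le_integral (s := ball p 2) i1 ?_)
  · refine integral_mono_ae hNi.integrableOn i1.integrableOn ?_
    rw [EventuallyLE, ae_restrict_iff' measurableSet_ball]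
    filter_upwards [hN0] with x hx hxb
    rw [mem_ball, dist_eq_norm] at hxb
    have b1 : R0 + 1 ≤ ‖x‖ := by
      have := norm_sub_norm_le p x
      rw [norm_sub_rev] at this
      linarith
    have b2 : Gw R0 k' p x = Ew k' p x := by
      rw [Gw, cut0_one hR0 b1, one_mul]
    have b3 : 1 ≤ Real.exp (6 * k') * Ew k' p x ^ 2 := by
      rw [Ew, ← Real.exp_nat_mul, ← Real.exp_add]
      refine Real.one_le_exp ?_
      have b4 : jap p x ≤ 3 := by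
        rw [jap]
        refine Real.sqrt_le_iff.2 ⟨by norm_num, ?_⟩
        nlinarith [norm_nonneg (x - p)]
      push_cast
      nlinarith
    rw [b2]
    calc N x = 1 * N x := (one_mul _).symm
      _ ≤ (Real.exp (6 * k') * Ew k' p x ^ 2) * N x := by gcongr
      _ = Real.exp (6 * k') * (Ew k' p x ^ 2 * N x) := by ring
  · filter_upwards [hN0] with x hx
    simp only [Pi.zero_apply]
    positivity

theorem q_small_scalar {k s g c1 C1 R A : ℝ} (hk : 1 / 4 ≤ k) (hs : 1 ≤ s) (hs' : s ≤ 3)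
    (hg : 0 < g) (hA : 0 ≤ A) {d : R3 → ℂ} {n : R3 → ℝ} (hd : AEStronglyMeasurable d volume)
    (hn : ∀ᵐ x, 5 * ‖d x‖ ^ 2 ≤ n x) (hn' : Integrable n) (h1 : TwoSided k s c1 C1 R d)
    (H : ∀ G : R3 → ℝ, ContDiff ℝ ∞ G → ∀ C, (∀ x, |G x| ≤ C) →
      (∀ j x, |fderiv ℝ G x (ev j)| ≤ C) → (∀ x, ‖x‖ ≤ 1 → G x = 0) →
      (k ^ 2 / 2 + g) * (∫ x, G x ^ 2 * (n x - 5 * ‖d x‖ ^ 2)) -
        (∫ x, G x ^ 2 * (n x - 5 * ‖d x‖ ^ 2) / ‖x‖) ≤
      (1 / 2) * (∫ x, (∑ j, (fderiv ℝ G x (ev j)) ^ 2) * (n x - 5 * ‖d x‖ ^ 2)) +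
        A * ∫ x, G x ^ 2 * (5 * ‖d x‖ ^ 2 / ‖x‖ ^ 4)) :
    ∃ C R', QSmall k s C R' d n := by
  set N : R3 → ℝ := fun x => n x - 5 * ‖d x‖ ^ 2 with hN
  have hN0 : ∀ᵐ x, 0 ≤ N x := by
    filter_upwards [hn] with x hx
    rw [hN]
    linarith
  have hd2 : Integrable (fun x => 5 * ‖d x‖ ^ 2) := by
    refine Integrable.mono' hn' ((hd.norm.pow 2).const_mul 5) ?_
    filter_upwards [hn] with x hx
    rw [Real.norm_of_nonneg (by positivity)]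
    exact hx
  have hNi : Integrable N := hn'.sub hd2
  have hIN : 0 ≤ ∫ x, N x := integral_nonneg_of_ae hN0
  -- the rates
  set k' := Real.sqrt (k ^ 2 + g) with hk'
  have hk'2 : k' ^ 2 = k ^ 2 + g := Real.sq_sqrt (by positivity)
  have hkk : k < k' := Real.lt_sqrt_of_sq_lt (by linarith)
  have hk'0 : 0 < k' := by linarith
  set R0 := max (max R 1) (4 / g) with hR0
  have hR0R : R ≤ R0 := (le_max_left _ _).trans (le_max_left _ _)
  have hR01 : 1 ≤ R0 := (le_max_right _ _).trans (le_max_left _ _)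
  have hR0g : 4 / g ≤ R0 := le_max_right _ _
  have hR00 : 0 ≤ R0 := by linarith
  obtain ⟨M, hM0, hM⟩ := exists_bound_cut0 R0 hR00
  set cM := 2 * k' ^ 2 + 6 * M ^ 2 with hcM
  have hcM0 : 0 ≤ cM := by positivity
  set W0 := ∫ y, Wt0 (k' - k) y with hW0
  set C2 := ((8 : ℕ).factorial : ℝ) * Real.exp (2 * (k' - k)) / (2 * (k' - k)) ^ 8 with hC2
  set Cf := Real.exp (6 * k') * (4 / g * (1 / 2 * cM * Real.exp (2 * k' * (R0 + 1)) * (∫ x, N x) * C2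
    + A * (5 * C1 ^ 2 * W0))) with hCf
  refine ⟨Cf, R0 + 3, fun p hp2 hpR => ⟨hNi.integrableOn, ?_⟩⟩
  have hp1 : 1 ≤ ‖p‖ := by linarith
  set G : R3 → ℝ := Gw R0 k' p with hG
  have key := H G (contDiff_Gw R0 k' p) (1 + M + k') (fun x => abs_Gw_le hk'0.le hM0 p x)
    (fun j x => abs_fderiv_Gw_le hk'0.le hM0 hM p x j) fun x hx => Gw_zero hR00 (hx.trans hR01)
  have hG2 : ∀ x, G x ^ 2 ≤ 1 := fun x =>
    (Gw_sq_le_Ew R0 k' p x).trans (pow_le_one₀ (Ew_pos k' p x).le (Ew_le_one hk'0.le p x))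
  have hGc : Continuous fun x => G x ^ 2 := (contDiff_Gw R0 k' p).continuous.pow 2
  have iG : Integrable (fun x => G x ^ 2 * N x) := by
    refine Integrable.mono' hNi (hGc.aestronglyMeasurable.mul hNi.1) ?_
    filter_upwards [hN0] with x hx
    rw [Real.norm_of_nonneg (by positivity)]
    exact mul_le_of_le_one_left hx (hG2 x)
  set I := ∫ x, G x ^ 2 * N x with hI
  -- the Coulomb term
  have t1 : ∫ x, G x ^ 2 * N x / ‖x‖ ≤ g / 4 * I := by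
    rw [hI, ← integral_const_mul]
    refine integral_mono_of_nonneg ?_ (iG.const_mul _) ?_
    · filter_upwards [hN0] with x hx
      simp only [Pi.zero_apply]
      positivity
    · filter_upwards [hN0] with x hx
      by_cases h : ‖x‖ ≤ R0
      · rw [hG, Gw_zero hR00 h]
        simp
      · have h : R0 < ‖x‖ := not_le.1 h
        have h3 : 0 < ‖x‖ := by linarith
        have h2 : 1 / ‖x‖ ≤ g / 4 := by
          rw [div_le_div_iff₀ h3 (by norm_num)]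
          have : 4 / g ≤ ‖x‖ := hR0g.trans h.le
          rw [div_le_iff₀ hg] at this
          linarith
        calc G x ^ 2 * N x / ‖x‖ = (1 / ‖x‖) * (G x ^ 2 * N x) := by ring
          _ ≤ g / 4 * (G x ^ 2 * N x) := by gcongr
  set e0 := Real.exp (2 * k' * (R0 + 1)) * Real.exp (-(2 * k' * ‖p‖)) with he0
  have t2 : ∫ x, (∑ j, (fderiv ℝ G x (ev j)) ^ 2) * N x ≤ k' ^ 2 * I + cM * e0 * ∫ x, N x := by
    rw [hI, ← integral_const_mul, ← integral_const_mul, ← integral_add (iG.const_mul _)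
      (hNi.const_mul _)]
    refine integral_mono_of_nonneg ?_ ((iG.const_mul _).add (hNi.const_mul _)) ?_
    · filter_upwards [hN0] with x hx
      exact mul_nonneg (Finset.sum_nonneg fun j _ => sq_nonneg _) hx
    · filter_upwards [hN0] with x hx
      calc (∑ j, (fderiv ℝ G x (ev j)) ^ 2) * N x ≤ (k' ^ 2 * G x ^ 2 + cM * e0) * N x := by
            gcongr
            exact sum_fderiv_Gw_le hR00 hk'0.le hM p x
        _ = _ := by ring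
  have t3 := source_le (k := k) (k' := k') (R0 := R0) (by linarith) hkk (by linarith) hs' h1 hR0R
    hR01 hp2 hp1
  have t4 := exp_le_Q (k := k) (k' := k') (s := s) (ρ := ‖p‖) hkk (by linarith) hp1
  rw [← hC2] at t4
  rw [← hW0] at t3
  set Q := ((Xf k s ‖p‖)⁻¹) ^ 2 / ‖p‖ ^ 8 with hQ
  have t5 : I ≤ 4 / g * (1 / 2 * cM * e0 * (∫ x, N x) + A * (5 * C1 ^ 2 * W0 * Q)) := by
    have a1 : A * ∫ x, G x ^ 2 * (5 * ‖d x‖ ^ 2 / ‖x‖ ^ 4) ≤ A * (5 * C1 ^ 2 * W0 * Q) :=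
      mul_le_mul_of_nonneg_left t3 hA
    have a3 : (k ^ 2 / 2 + g) * I - g / 4 * I ≤ 1 / 2 * (k' ^ 2 * I + cM * e0 * ∫ x, N x)
        + A * (5 * C1 ^ 2 * W0 * Q) := by
      linarith
    rw [hk'2] at a3
    rw [div_mul_eq_mul_div, le_div_iff₀ hg]
    linarith
  have t6 : e0 ≤ Real.exp (2 * k' * (R0 + 1)) * (C2 * Q) := by
    rw [he0]
    exact mul_le_mul_of_nonneg_left t4 (Real.exp_pos _).le
  have t7 := ball_le hR00 hk'0.le hpR hN0 hNi iG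
  refine t7.trans ?_
  have hfin : Cf / ‖p‖ ^ 8 * ((Xf k s ‖p‖)⁻¹) ^ 2 = Cf * Q := by
    rw [hQ]
    ring
  rw [hfin, hCf]
  have t8 : 1 / 2 * cM * e0 * (∫ x, N x) ≤
      1 / 2 * cM * (Real.exp (2 * k' * (R0 + 1)) * (C2 * Q)) * (∫ x, N x) :=
    mul_le_mul_of_nonneg_right (mul_le_mul_of_nonneg_left t6 (by positivity)) hIN
  have t9 : I ≤ 4 / g * (1 / 2 * cM * (Real.exp (2 * k' * (R0 + 1)) * (C2 * Q)) * (∫ x, N x)
      + A * (5 * C1 ^ 2 * W0 * Q)) :=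
    t5.trans (mul_le_mul_of_nonneg_left (by linarith) (by positivity))
  calc Real.exp (6 * k') * I
      ≤ Real.exp (6 * k') * (4 / g * (1 / 2 * cM * (Real.exp (2 * k' * (R0 + 1)) * (C2 * Q))
          * (∫ x, N x) + A * (5 * C1 ^ 2 * W0 * Q))) :=
        mul_le_mul_of_nonneg_left t9 (Real.exp_pos _).le
    _ = _ := by ring

end

end Vale.Agent.P363.B5
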