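import Vale.Agent.P363.R.B5.RadTest
import Vale.Agent.P363.R.B5.FluxLim
import Vale.Agent.P363.R.B5.Polar

/-! Reduction of the equation of the Dyson amplitude to the radial equation. -/

namespace Vale.Agent.P363.B5

open MeasureTheory Set Filter Topology Metric
open Vale.Agent.P363.Stmt
open Vale.Agent.P363.R.Sob
open scoped ContDiff

noncomputable section

/-- `∫ u₂²` over the sphere. -/
def Ac : ℝ := ∫ u : S2, ((u : R3) 2) ^ 2 ∂sig

theorem continuous_coord2 : Continuous fun u : S2 => ((u : R3) 2) := by fun_prop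

theorem Ac_pos : 0 < Ac := by
  have h1 : ‖(EuclideanSpace.single 2 1 : R3)‖ = 1 := by simp
  refine Continuous.integral_pos_of_hasCompactSupport_nonneg_nonzero (μ := sig)
    (x := ⟨EuclideanSpace.single 2 1, by simp⟩) (continuous_coord2.pow 2) ?_
    (fun u => sq_nonneg _) ?_
  · exact HasCompactSupport.of_compactSpace _
  · simp

theorem norm_smul_S2 {r : ℝ} (hr : 0 < r) (u : S2) : ‖r • (u : R3)‖ = r := by
  have : ‖(u : R3)‖ = 1 := by simp
  rw [norm_smul, this, mul_one, Real.norm_of_nonneg hr.le]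

theorem Sph_radial (F : ℝ → ℝ) {r : ℝ} (hr : 0 < r) :
    Sph (fun x => F ‖x‖ * (x 2) ^ 2) r = F r * r ^ 2 * Ac := by
  simp only [Sph, norm_smul_S2 hr, Ac]
  rw [← integral_const_mul]
  refine integral_congr_ae (Eventually.of_forall fun u => ?_)
  simp
  ring

/-- Cauchy-Schwarz on the sphere. -/
theorem sph_cs {g : S2 → ℝ} (hg : Integrable g sig) (hg0 : ∀ᵐ u ∂sig, 0 ≤ g u) :
    (∫ u : S2, Real.sqrt (g u) * |(u : R3) 2| ∂sig) ^ 2 ≤ (∫ u, g u ∂sig) * Ac := by
  have h2 : Integrable (fun u : S2 => ((u : R3) 2) ^ 2) sig :=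
    (continuous_coord2.pow 2).integrable_of_hasCompactSupport (HasCompactSupport.of_compactSpace _)
  have hs : AEStronglyMeasurable (fun u : S2 => Real.sqrt (g u) * |(u : R3) 2|) sig :=
    (Real.continuous_sqrt.comp_aestronglyMeasurable hg.1).mul
      (continuous_coord2.abs.aestronglyMeasurable)
  have h3 : Integrable (fun u : S2 => Real.sqrt (g u) * |(u : R3) 2|) sig := by
    refine Integrable.mono' (hg.add h2) hs ?_
    filter_upwards [hg0] with u hu
    rw [Real.norm_of_nonneg (by positivity)]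
    have e1 := Real.sq_sqrt hu
    have e2 := sq_abs ((u : R3) 2)
    simp only [Pi.add_apply]
    nlinarith [sq_nonneg (Real.sqrt (g u) - |(u : R3) 2|), Real.sqrt_nonneg (g u),
      abs_nonneg ((u : R3) 2), mul_nonneg (Real.sqrt_nonneg (g u)) (abs_nonneg ((u : R3) 2))]
  have key : ∀ t : ℝ, 0 ≤ (∫ u, g u ∂sig) * (t * t)
      + (-2 * ∫ u : S2, Real.sqrt (g u) * |(u : R3) 2| ∂sig) * t + Ac := by
    intro t
    have e : (∫ u, g u ∂sig) * (t * t)
      + (-2 * ∫ u : S2, Real.sqrt (g u) * |(u : R3) 2| ∂sig) * t + Ac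
      = ∫ u : S2, ((t * t) * g u + (-2 * t) * (Real.sqrt (g u) * |(u : R3) 2|) + ((u : R3) 2) ^ 2) ∂sig := by
      have h4 : Integrable (fun u : S2 => (t * t) * g u + (-2 * t) * (Real.sqrt (g u) * |(u : R3) 2|))
        sig := (hg.const_mul _).add (h3.const_mul _)
      rw [integral_add h4 h2,
        integral_add (hg.const_mul _) (h3.const_mul _), integral_const_mul, integral_const_mul, Ac]
      ring
    rw [e]
    refine integral_nonneg_of_ae ?_
    filter_upwards [hg0] with u hu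
    have e1 := Real.sq_sqrt hu
    have e2 := sq_abs ((u : R3) 2)
    have : (t * t) * g u + (-2 * t) * (Real.sqrt (g u) * |(u : R3) 2|) + ((u : R3) 2) ^ 2
      = (t * Real.sqrt (g u) - |(u : R3) 2|) ^ 2 := by
      rw [sub_sq, mul_pow, e1, e2]
      ring
    simp only [Pi.zero_apply]
    rw [this]
    positivity
  have := discrim_le_zero key
  rw [discrim] at this
  nlinarith

/-- integrability of `‖x‖⁻⁶` far from the origin -/
theorem integrableOn_inv_pow {a : ℝ} (ha : 1 ≤ a) :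
    IntegrableOn (fun x : R3 => (1 / ‖x‖ ^ 6 : ℝ)) {x | a < ‖x‖} := by
  have h1 : Integrable (fun x : R3 => (1 + ‖x‖) ^ (-(6 : ℝ))) := by
    refine integrable_one_add_norm ?_
    simp
    norm_num
  refine Integrable.mono' (g := fun x => 64 * (1 + ‖x‖) ^ (-(6 : ℝ))) (h1.const_mul 64).integrableOn ?_ ?_
  · exact (by fun_prop : Measurable fun x : R3 => (1 / ‖x‖ ^ 6 : ℝ)).aestronglyMeasurable
  · rw [ae_restrict_iff' (measurableSet_lt measurable_const measurable_norm)]
    refine Eventually.of_forall fun x hx => ?_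
    have hx : a < ‖x‖ := hx
    have h2 : 0 < ‖x‖ := by linarith
    rw [Real.norm_of_nonneg (by positivity), Real.rpow_neg (by positivity)]
    have h3 : (1 + ‖x‖) ^ (6 : ℝ) = (1 + ‖x‖) ^ 6 := by
      rw [← Real.rpow_natCast]
      norm_num
    rw [h3, div_le_iff₀ (by positivity)]
    have h4 : (1 + ‖x‖) ^ 6 ≤ (2 * ‖x‖) ^ 6 := by
      refine pow_le_pow_left₀ (by positivity) ?_ 6
      linarith
    have h5 : 64 * ((1 + ‖x‖) ^ 6)⁻¹ * ‖x‖ ^ 6 = (2 * ‖x‖) ^ 6 / (1 + ‖x‖) ^ 6 := by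
      field_simp
      ring
    rw [h5, le_div_iff₀ (by positivity), one_mul]
    exact h4

/-- The radial weak equation. -/
theorem weak_radial {k s a lam : ℝ} (hk : 0 < k) (ha0 : 0 < a) (hs : 0 ≤ s)
    {d Rm f : R3 → ℝ} {G : ℝ → ℝ}
    (hd : ∀ᵐ x, d x = G ‖x‖ * x 2) (hdL : LocallyIntegrable d volume)
    (hf : f = {x : R3 | a < ‖x‖}.indicator (fun x => Rm x * (x 2 / ‖x‖ ^ 2)))
    (hfi : Integrable f)
    (DE : ∀ ζ : R3 → ℝ, Test ζ → (0 : R3) ∉ tsupport ζ → (∀ x, ‖x‖ ≤ a → ζ x = 0) →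
      -(1 / 2) * (∫ x, lapT ζ x * d x) + ∫ x, (k ^ 2 / 2 - k * s / ‖x‖) * (ζ x * d x) =
        -lam * ∫ x, ζ x * Rm x)
    {w ρ0 h : ℝ → ℝ} (hwdef : w = fun r => r ^ 2 * G r) (hρ0 : ρ0 = fun r => r ^ 2 * Sph f r)
    (hh : h = fun r => (k ^ 2 - 2 * k * s / r + 2 / r ^ 2) * w r + 2 * lam / Ac * ρ0 r)
    (hwli : LocallyIntegrableOn w (Ioi a)) (hhli : LocallyIntegrableOn h (Ioi a))
    {η : ℝ → ℝ} (hη : TestOn a η) :
    ∫ x, deriv (deriv η) x * w x = ∫ x, η x * h x := by
  have hA := Ac_pos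
  obtain ⟨c0, d0, hac, hcd, hz⟩ := hη.exists_Ioo
  have hc0 : 0 < c0 := ha0.trans hac
  have hd0 : 0 < d0 := hc0.trans hcd
  have hχ := prof_contDiff ha0.le hη
  set χ := prof η with hχdef
  set ζ : R3 → ℝ := fun x => χ (‖x‖ ^ 2) * x 2 with hζ
  have hχz : ∀ x : R3, ‖x‖ ∉ Ioo c0 d0 → χ (‖x‖ ^ 2) = 0 := by
    intro x hx
    refine prof_zero hc0 hd0 hz fun h => hx ⟨?_, ?_⟩
    · exact lt_of_pow_lt_pow_left₀ 2 (norm_nonneg x) h.1
    · exact lt_of_pow_lt_pow_left₀ 2 hd0.le h.2
  have hζz : ∀ x : R3, ‖x‖ ∉ Ioo c0 d0 → ζ x = 0 := fun x hx => by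
    rw [hζ]
    simp only
    rw [hχz x hx, zero_mul]
  have hζeq : ∀ x, ζ x = η ‖x‖ / ‖x‖ ^ 2 * x 2 := zet_eq η
  have hζT : Test ζ := by
    constructor
    · refine ContDiff.mul (hχ.comp (contDiff_norm_sq ℝ)) ?_
      exact (EuclideanSpace.proj (2 : Fin 3) : R3 →L[ℝ] ℝ).contDiff
    · refine HasCompactSupport.of_support_subset_isCompact (isCompact_closedBall (0 : R3) d0) ?_
      intro x hx
      rw [mem_closedBall_zero_iff]
      by_contra h
      exact hx (hζz x fun h' => h h'.2.le)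
  have hζ0 : (0 : R3) ∉ tsupport ζ := by
    intro h
    have h1 : tsupport ζ ⊆ {x : R3 | c0 ≤ ‖x‖} := by
      refine closure_minimal (fun x hx => ?_) (isClosed_le continuous_const continuous_norm)
      by_contra h
      exact hx (hζz x fun h' => h h'.1.le)
    have h2 : c0 ≤ ‖(0 : R3)‖ := h1 h
    rw [norm_zero] at h2
    linarith
  have hDE := DE ζ hζT hζ0 fun x hx => hζz x fun h' => absurd (hac.trans h'.1) (not_lt.2 hx)
  -- first integral
  have hlap : ∀ x, lapT ζ x = x 2 * (4 * ‖x‖ ^ 2 * deriv (deriv χ) (‖x‖ ^ 2)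
      + 10 * deriv χ (‖x‖ ^ 2)) := fun x => lapT_zet hχ x
  have hlapi : Integrable (fun x => lapT ζ x * d x) := by
    have h1 : ∀ k : Fin 3, Integrable (fun x =>
        fderiv ℝ (fun y => fderiv ℝ ζ y (ev k)) x (ev k) * d x) := fun k =>
      ((hζT.fderiv (ev k)).fderiv (ev k)).integrable_smul hdL
    have h2 : (fun x => lapT ζ x * d x) = fun x => ∑ k : Fin 3,
        fderiv ℝ (fun y => fderiv ℝ ζ y (ev k)) x (ev k) * d x := by
      funext x
      rw [lapT, Finset.sum_mul]
    rw [h2]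
    exact integrable_finsetSum _ fun k _ => h1 k
  set F1 : ℝ → ℝ := fun r => (4 * r ^ 2 * deriv (deriv χ) (r ^ 2) + 10 * deriv χ (r ^ 2)) * G r with hF1
  have hae1 : (fun x => lapT ζ x * d x) =ᵐ[volume] fun x => F1 ‖x‖ * (x 2) ^ 2 := by
    filter_upwards [hd] with x hx
    rw [hlap x, hx, hF1]
    ring
  have hP1 := integral_polar (hlapi.congr hae1)
  rw [← integral_congr_ae hae1] at hP1
  have hS1 : ∀ r, 0 < r → r ^ 2 * Sph (fun x => F1 ‖x‖ * (x 2) ^ 2) r
      = Ac * ((deriv (deriv η) r - 2 * η r / r ^ 2) * w r) := by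
    intro r hr
    have e1 := phi_deriv2 ha0.le hη hr
    have e2 : prof η (r ^ 2) = η r / r ^ 2 := by
      simp only [prof, Real.sqrt_sq hr.le]
    rw [Sph_radial F1 hr, e1, e2, hF1, hwdef]
    simp only
    rw [← hχdef]
    field_simp
    ring
  -- second integral
  set F2 : ℝ → ℝ := fun r => (k ^ 2 / 2 - k * s / r) * (χ (r ^ 2) * G r) with hF2
  have hae2 : (fun x => (k ^ 2 / 2 - k * s / ‖x‖) * (ζ x * d x)) =ᵐ[volume]
      fun x => F2 ‖x‖ * (x 2) ^ 2 := by
    filter_upwards [hd] with x hx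
    rw [hx, hF2, hζ]
    ring
  have h2i : Integrable (fun x => (k ^ 2 / 2 - k * s / ‖x‖) * (ζ x * d x)) := by
    have h0 : Integrable (fun x => ζ x * d x) := hζT.integrable_smul hdL
    refine Integrable.mono' (g := fun x => (k ^ 2 / 2 + k * s / c0) * ‖ζ x * d x‖)
      (h0.norm.const_mul _) ?_ (Eventually.of_forall fun x => ?_)
    · refine AEStronglyMeasurable.mul ?_ h0.1
      exact (by fun_prop : Measurable fun x : R3 => (k ^ 2 / 2 - k * s / ‖x‖)).aestronglyMeasurable
    · rw [norm_mul]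
      by_cases hx : ‖x‖ ∈ Ioo c0 d0
      · refine mul_le_mul_of_nonneg_right ?_ (norm_nonneg _)
        have h1 : 0 ≤ k * s / ‖x‖ := by positivity
        have h2 : k * s / ‖x‖ ≤ k * s / c0 :=
          div_le_div_of_nonneg_left (by positivity) hc0 hx.1.le
        rw [Real.norm_eq_abs, abs_le]
        constructor <;> nlinarith [sq_nonneg k]
      · rw [hζz x hx]
        simp
  have hP2 := integral_polar (h2i.congr hae2)
  rw [← integral_congr_ae hae2] at hP2
  have hS2 : ∀ r, 0 < r → r ^ 2 * Sph (fun x => F2 ‖x‖ * (x 2) ^ 2) r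
      = Ac * ((k ^ 2 / 2 - k * s / r) * (η r * w r)) := by
    intro r hr
    have e2 : χ (r ^ 2) = η r / r ^ 2 := by
      simp only [hχdef, prof, Real.sqrt_sq hr.le]
    rw [Sph_radial F2 hr, hF2, hwdef]
    simp only
    rw [e2]
    field_simp
  -- third integral
  have hae3 : (fun x => ζ x * Rm x) = fun x => η ‖x‖ * f x := by
    funext x
    by_cases hx : ‖x‖ ∈ Ioo c0 d0
    · have hmem : x ∈ {x : R3 | a < ‖x‖} := hac.trans hx.1
      rw [hf, indicator_of_mem hmem, hζeq]
      ring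
    · rw [hζz x hx, hz _ hx]
      ring
  obtain ⟨B, hB⟩ := hη.continuous.bounded_above_of_compact_support hη.cpt
  have h3i : Integrable (fun x => η ‖x‖ * f x) :=
    hfi.bdd_mul ((hη.continuous.comp continuous_norm).aestronglyMeasurable)
      (Eventually.of_forall fun x => hB ‖x‖)
  have hP3 := integral_polar h3i
  have hS3 : ∀ r, 0 < r → r ^ 2 * Sph (fun x => η ‖x‖ * f x) r = η r * ρ0 r := by
    intro r hr
    simp only [Sph, norm_smul_S2 hr, hρ0]
    rw [integral_const_mul]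
    ring
  rw [hae3] at hDE
  have hC1 : ∫ x, lapT ζ x * d x = ∫ r in Ioi (0 : ℝ),
      Ac * ((deriv (deriv η) r - 2 * η r / r ^ 2) * w r) := by
    rw [hP1.2]
    exact setIntegral_congr_fun measurableSet_Ioi fun r hr => hS1 r hr
  have hC2 : ∫ x, (k ^ 2 / 2 - k * s / ‖x‖) * (ζ x * d x) = ∫ r in Ioi (0 : ℝ),
      Ac * ((k ^ 2 / 2 - k * s / r) * (η r * w r)) := by
    rw [hP2.2]
    exact setIntegral_congr_fun measurableSet_Ioi fun r hr => hS2 r hr
  have hC3 : ∫ x, η ‖x‖ * f x = ∫ r in Ioi (0 : ℝ), η r * ρ0 r := by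
    rw [hP3.2]
    exact setIntegral_congr_fun measurableSet_Ioi fun r hr => hS3 r hr
  have hI1 : IntegrableOn (fun r => Ac * ((deriv (deriv η) r - 2 * η r / r ^ 2) * w r)) (Ioi 0) :=
    hP1.1.congr_fun (fun r hr => hS1 r hr) measurableSet_Ioi
  have hI2 : IntegrableOn (fun r => Ac * ((k ^ 2 / 2 - k * s / r) * (η r * w r))) (Ioi 0) :=
    hP2.1.congr_fun (fun r hr => hS2 r hr) measurableSet_Ioi
  have hI3 : IntegrableOn (fun r => η r * ρ0 r) (Ioi 0) :=
    hP3.1.congr_fun (fun r hr => hS3 r hr) measurableSet_Ioi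
  rw [hC1, hC2, hC3] at hDE
  -- combine
  have j1 := LocallyIntegrableOn.integrable_testOn hwli hη.deriv.deriv
  have j2 := LocallyIntegrableOn.integrable_testOn hhli hη
  have hfin : (∫ x, deriv (deriv η) x * w x) - ∫ x, η x * h x = 0 := by
    rw [← integral_sub j1 j2]
    have e1 : ∫ r, (deriv (deriv η) r * w r - η r * h r)
        = ∫ r in Ioi (0 : ℝ), (deriv (deriv η) r * w r - η r * h r) := by
      refine (setIntegral_eq_integral_of_forall_compl_eq_zero fun r hr => ?_).symm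
      have hr' : r ∉ Ioo c0 d0 := fun h' => hr (hc0.trans h'.1)
      have hdd : deriv (deriv η) r = 0 := by
        have h1 : η =ᶠ[𝓝 r] fun _ => 0 := by
          have hr0 : r < c0 := lt_of_le_of_lt (not_lt.1 hr) hc0
          filter_upwards [Iio_mem_nhds hr0] with y hy
          exact hz y fun h' => absurd h'.1 (not_lt.2 (le_of_lt hy))
        have h2 : deriv η =ᶠ[𝓝 r] fun _ => 0 := by
          have := h1.deriv
          simpa using this
        rw [h2.deriv_eq]
        simp
      rw [hz r hr', hdd]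
      ring
    rw [e1]
    have e2 : ∫ r in Ioi (0 : ℝ), (deriv (deriv η) r * w r - η r * h r)
        = ∫ r in Ioi (0 : ℝ), (Ac⁻¹ * (Ac * ((deriv (deriv η) r - 2 * η r / r ^ 2) * w r))
          - 2 * Ac⁻¹ * (Ac * ((k ^ 2 / 2 - k * s / r) * (η r * w r)))
          - 2 * lam / Ac * (η r * ρ0 r)) := by
      refine setIntegral_congr_fun measurableSet_Ioi fun r hr => ?_
      have hr : 0 < r := hr
      simp only [hh]
      field_simp
      ring
    have hI12 : IntegrableOn (fun r => Ac⁻¹ * (Ac * ((deriv (deriv η) r - 2 * η r / r ^ 2) * w r))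
          - 2 * Ac⁻¹ * (Ac * ((k ^ 2 / 2 - k * s / r) * (η r * w r)))) (Ioi 0) :=
      (hI1.const_mul _).sub (hI2.const_mul _)
    rw [e2, integral_sub hI12 (hI3.const_mul _), integral_sub (hI1.const_mul _) (hI2.const_mul _),
      integral_const_mul Ac⁻¹ (fun r => Ac * ((deriv (deriv η) r - 2 * η r / r ^ 2) * w r)),
      integral_const_mul (2 * Ac⁻¹) (fun r => Ac * ((k ^ 2 / 2 - k * s / r) * (η r * w r))),
      integral_const_mul (2 * lam / Ac) (fun r => η r * ρ0 r)]
    have e3 : (∫ r in Ioi (0 : ℝ), Ac * ((k ^ 2 / 2 - k * s / r) * (η r * w r)))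
        = 1 / 2 * (∫ r in Ioi (0 : ℝ), Ac * ((deriv (deriv η) r - 2 * η r / r ^ 2) * w r))
          - lam * ∫ r in Ioi (0 : ℝ), η r * ρ0 r := by linarith
    rw [e3]
    field_simp
    ring
  linarith

theorem fluxData_of_radial {k s a C K lam : ℝ} (hk : 0 < k) (ha : 1 ≤ a) (hs1 : 7 / 4 ≤ s)
    (hs2 : s ≤ 9 / 4) (hC : 0 ≤ C) (hlam : 0 ≤ lam) {d Rm : R3 → ℝ} {G : ℝ → ℝ}
    (hG : Measurable G) (hd : ∀ᵐ x, d x = G ‖x‖ * x 2) (hdL : LocallyIntegrable d volume)
    {n : R3 → ℝ} (hn : Integrable n) (hn0 : ∀ᵐ x, 0 ≤ n x) (hdn : ∀ᵐ x, d x ^ 2 ≤ n x)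
    (hRm : AEStronglyMeasurable Rm volume)
    (hR : ∀ᵐ x, a < ‖x‖ → |Rm x| ≤ C / ‖x‖ ^ 2 * Real.sqrt (n x))
    (DE : ∀ ζ : R3 → ℝ, Test ζ → (0 : R3) ∉ tsupport ζ → (∀ x, ‖x‖ ≤ a → ζ x = 0) →
      -(1 / 2) * (∫ x, lapT ζ x * d x) + ∫ x, (k ^ 2 / 2 - k * s / ‖x‖) * (ζ x * d x) =
        -lam * ∫ x, ζ x * Rm x)
    (hw : IntegrableOn (fun x => Real.exp (2 * k * ‖x‖) / ‖x‖ ^ 6 * n x) {x | a < ‖x‖})
    (hK : ∫ x in {x | a < ‖x‖}, Real.exp (2 * k * ‖x‖) / ‖x‖ ^ 6 * n x ≤ K) :
    ∃ w w1 h ρ N, FluxData k s a (2 * lam * C) (K / Ac) w w1 h ρ N ∧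
      ∀ᵐ r, a < r → w r = r ^ 2 * G r := by
  have hA := Ac_pos
  have ha0 : 0 < a := by linarith
  have hmeas : MeasurableSet {x : R3 | a < ‖x‖} := measurableSet_lt measurable_const measurable_norm
  -- the source term
  set f : R3 → ℝ := {x : R3 | a < ‖x‖}.indicator (fun x => Rm x * (x 2 / ‖x‖ ^ 2)) with hf
  have hcoord : ∀ x : R3, |x 2| ≤ ‖x‖ := fun x => by
    have := EuclideanSpace.norm_sq_eq x
    rw [Fin.sum_univ_three] at this
    refine abs_le_of_sq_le_sq ?_ (norm_nonneg x)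
    simp only [Real.norm_eq_abs, sq_abs] at this
    nlinarith [sq_nonneg (x 0), sq_nonneg (x 1)]
  have hfi : Integrable f := by
    rw [hf, integrable_indicator_iff hmeas]
    refine Integrable.mono' (g := fun x => C * (n x + 1 / ‖x‖ ^ 6))
      ((hn.integrableOn.add (integrableOn_inv_pow ha)).const_mul C) ?_ ?_
    · refine (hRm.mul ?_).restrict
      exact (by fun_prop : Measurable fun x : R3 => (x 2 / ‖x‖ ^ 2)).aestronglyMeasurable
    · rw [ae_restrict_iff' hmeas]
      filter_upwards [hR, hn0] with x hx hx0 hax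
      have hax : a < ‖x‖ := hax
      have h2 : 0 < ‖x‖ := by linarith
      have h3 := hx hax
      rw [norm_mul, Real.norm_eq_abs, Real.norm_eq_abs, abs_div, abs_of_pos (by positivity : 0 < ‖x‖ ^ 2)]
      have h4 : |x 2| / ‖x‖ ^ 2 ≤ ‖x‖ / ‖x‖ ^ 2 := by
        gcongr
        exact hcoord x
      calc |Rm x| * (|x 2| / ‖x‖ ^ 2) ≤ (C / ‖x‖ ^ 2 * Real.sqrt (n x)) * (‖x‖ / ‖x‖ ^ 2) := by
            gcongr
        _ = C * (Real.sqrt (n x) * (1 / ‖x‖ ^ 3)) := by field_simp
        _ ≤ C * (n x + 1 / ‖x‖ ^ 6) := by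
            refine mul_le_mul_of_nonneg_left ?_ hC
            have e1 := Real.sq_sqrt hx0
            have e2 : 1 / ‖x‖ ^ 6 = (1 / ‖x‖ ^ 3) ^ 2 := by
              rw [div_pow, one_pow, ← pow_mul]
            rw [e2]
            nlinarith [sq_nonneg (Real.sqrt (n x) - 1 / ‖x‖ ^ 3), Real.sqrt_nonneg (n x),
              mul_nonneg (Real.sqrt_nonneg (n x)) (by positivity : 0 ≤ 1 / ‖x‖ ^ 3)]
  set ρ0 : ℝ → ℝ := fun r => r ^ 2 * Sph f r with hρ0
  have hρ0i : IntegrableOn ρ0 (Ioi 0) := (integral_polar hfi).1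
  set w : ℝ → ℝ := fun r => r ^ 2 * G r with hwdef
  set N : ℝ → ℝ := fun r => Real.sqrt (r ^ 2 * Sph n r / Ac) with hN
  have hSn : ∀ᵐ r : ℝ, 0 < r → 0 ≤ Sph n r := by
    filter_upwards [ae_polar hn0] with r hr hr0
    exact integral_nonneg_of_ae (hr hr0)
  -- (i) |w| ≤ N
  have hwN : ∀ᵐ r : ℝ, 0 < r → |w r| ≤ N r := by
    filter_upwards [ae_polar hdn, ae_polar hd, ae_integrable_sph hn] with r h1 h2 h3 hr
    have h4 := h1 hr
    have h5 := h2 hr
    refine Real.abs_le_sqrt ?_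
    rw [le_div_iff₀ hA]
    have h6 : (G r) ^ 2 * r ^ 2 * Ac ≤ Sph n r := by
      rw [Ac, ← integral_const_mul, Sph]
      refine integral_mono_ae ?_ (h3 hr) ?_
      · exact ((continuous_coord2.pow 2).integrable_of_hasCompactSupport
          (HasCompactSupport.of_compactSpace _)).const_mul _
      · filter_upwards [h4, h5] with u h7 h8
        rw [h8, norm_smul_S2 hr] at h7
        refine le_trans (le_of_eq ?_) h7
        simp
        ring
    calc w r ^ 2 * Ac = r ^ 2 * ((G r) ^ 2 * r ^ 2 * Ac) := by rw [hwdef]; ring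
      _ ≤ r ^ 2 * Sph n r := by gcongr
  -- (ii) the bound of the source
  have hρN : ∀ᵐ r : ℝ, a < r → |2 * lam / Ac * ρ0 r| ≤ 2 * lam * C / r ^ 2 * N r := by
    filter_upwards [ae_polar hR, ae_polar hn0, ae_integrable_sph hn, hSn] with r h1 h2 h3 h4 har
    have hr : 0 < r := ha0.trans har
    have hcs := sph_cs (h3 hr) (h2 hr)
    have hS := h4 hr
    have h5 : |Sph f r| ≤ C / r ^ 3 * ∫ u : S2, Real.sqrt (n (r • (u : R3))) * |(u : R3) 2| ∂sig := by
      rw [← integral_const_mul, Sph, ← Real.norm_eq_abs]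
      refine norm_integral_le_of_norm_le ?_ ?_
      · refine Integrable.const_mul ?_ _
        have hi2 : Integrable (fun u : S2 => ((u : R3) 2) ^ 2) sig :=
          (continuous_coord2.pow 2).integrable_of_hasCompactSupport
            (HasCompactSupport.of_compactSpace _)
        refine Integrable.mono' ((h3 hr).add hi2) ?_ ?_
        · exact (Real.continuous_sqrt.comp_aestronglyMeasurable (h3 hr).1).mul
            (continuous_coord2.abs.aestronglyMeasurable)
        · filter_upwards [h2 hr] with u hu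
          rw [Real.norm_of_nonneg (by positivity)]
          have e1 := Real.sq_sqrt hu
          have e2 := sq_abs ((u : R3) 2)
          simp only [Pi.add_apply]
          nlinarith [sq_nonneg (Real.sqrt (n (r • (u : R3))) - |(u : R3) 2|),
            Real.sqrt_nonneg (n (r • (u : R3))),
            abs_nonneg ((u : R3) 2), mul_nonneg (Real.sqrt_nonneg (n (r • (u : R3))))
              (abs_nonneg ((u : R3) 2))]
      · filter_upwards [h1 hr] with u hu
        have hnr := norm_smul_S2 hr u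
        rw [hnr] at hu
        have hmem : r • (u : R3) ∈ {x : R3 | a < ‖x‖} := by
          show a < ‖r • (u : R3)‖
          rw [hnr]
          exact har
        rw [hf, indicator_of_mem hmem, hnr, norm_mul, Real.norm_eq_abs, Real.norm_eq_abs]
        have e1 : |(r • (u : R3)) 2 / r ^ 2| = |(u : R3) 2| / r := by
          simp only [PiLp.smul_apply, smul_eq_mul]
          rw [abs_div, abs_mul, abs_of_pos hr, abs_of_pos (by positivity : 0 < r ^ 2)]
          field_simp
        rw [e1]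
        calc |Rm (r • (u : R3))| * (|(u : R3) 2| / r)
            ≤ (C / r ^ 2 * Real.sqrt (n (r • (u : R3)))) * (|(u : R3) 2| / r) := by
              gcongr
              exact hu har
          _ = C / r ^ 3 * (Real.sqrt (n (r • (u : R3))) * |(u : R3) 2|) := by field_simp
    set Y := ∫ u : S2, Real.sqrt (n (r • (u : R3))) * |(u : R3) 2| ∂sig with hY
    have hY0 : 0 ≤ Y := integral_nonneg fun u => by positivity
    have h6 : Y ≤ Ac * (N r / r) := by
      have e1 : (Ac * (N r / r)) ^ 2 = Sph n r * Ac := by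
        have e2 : N r ^ 2 = r ^ 2 * Sph n r / Ac := Real.sq_sqrt (by positivity)
        rw [mul_pow, div_pow, e2]
        field_simp
      have e3 : Y ^ 2 ≤ (Ac * (N r / r)) ^ 2 := by
        rw [e1]
        exact hcs
      exact le_of_sq_le_sq e3 (by positivity)
    rw [abs_mul, abs_of_nonneg (by positivity : 0 ≤ 2 * lam / Ac), hρ0]
    simp only
    rw [abs_mul, abs_of_pos (by positivity : 0 < r ^ 2)]
    calc 2 * lam / Ac * (r ^ 2 * |Sph f r|)
        ≤ 2 * lam / Ac * (r ^ 2 * (C / r ^ 3 * (Ac * (N r / r)))) := by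
          gcongr
          exact h5.trans (by gcongr)
      _ = 2 * lam * C / r ^ 2 * N r := by field_simp
  -- (iii) the weighted bound
  set gw : R3 → ℝ := {x : R3 | a < ‖x‖}.indicator
    (fun x => Real.exp (2 * k * ‖x‖) / ‖x‖ ^ 6 * n x) with hgw
  have hgwi : Integrable gw := by
    rw [hgw, integrable_indicator_iff hmeas]
    exact hw
  have hpg := integral_polar hgwi
  have hgS : ∀ r, a < r → r ^ 2 * Sph gw r = Ac * (Real.exp (k * r) / r ^ 3) ^ 2 * (r ^ 2 * Sph n r / Ac) := by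
    intro r har
    have hr : 0 < r := ha0.trans har
    have e1 : Sph gw r = Real.exp (2 * k * r) / r ^ 6 * Sph n r := by
      simp only [Sph]
      rw [← integral_const_mul]
      refine integral_congr_ae (Eventually.of_forall fun u => ?_)
      have hnr := norm_smul_S2 hr u
      have hmem : r • (u : R3) ∈ {x : R3 | a < ‖x‖} := by
        show a < ‖r • (u : R3)‖
        rw [hnr]
        exact har
      simp only
      rw [hgw, indicator_of_mem hmem, hnr]
    have e2 : Real.exp (2 * k * r) = Real.exp (k * r) ^ 2 := by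
      rw [← Real.exp_nat_mul]
      congr 1
      push_cast
      ring
    rw [e1, e2]
    field_simp
  have hMeq : ∀ᵐ r : ℝ, a < r → (Real.exp (k * r) / r ^ 3 * N r) ^ 2 = Ac⁻¹ * (r ^ 2 * Sph gw r) := by
    filter_upwards [hSn] with r h4 har
    have hr : 0 < r := ha0.trans har
    have hS := h4 hr
    have e2 : N r ^ 2 = r ^ 2 * Sph n r / Ac := Real.sq_sqrt (by positivity)
    rw [hgS r har, mul_pow, e2]
    field_simp
  have hMi : IntegrableOn (fun r => (Real.exp (k * r) / r ^ 3 * N r) ^ 2) (Ioi a) := by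
    have h1 : IntegrableOn (fun r => Ac⁻¹ * (r ^ 2 * Sph gw r)) (Ioi a) :=
      (hpg.1.mono_set (Ioi_subset_Ioi ha0.le)).const_mul _
    refine h1.congr ?_
    rw [EventuallyEq, ae_restrict_iff' measurableSet_Ioi]
    filter_upwards [hMeq] with r h har
    exact (h har).symm
  have hMK : ∫ r in Ioi a, (Real.exp (k * r) / r ^ 3 * N r) ^ 2 ≤ K / Ac := by
    have e1 : ∫ r in Ioi a, (Real.exp (k * r) / r ^ 3 * N r) ^ 2
        = ∫ r in Ioi a, Ac⁻¹ * (r ^ 2 * Sph gw r) := by
      refine integral_congr_ae ?_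
      rw [EventuallyEq, ae_restrict_iff' measurableSet_Ioi]
      filter_upwards [hMeq] with r h har
      exact h har
    have hgw0 : ∀ᵐ x, 0 ≤ gw x := by
      filter_upwards [hn0] with x hx
      by_cases hx' : x ∈ {x : R3 | a < ‖x‖}
      · rw [hgw, indicator_of_mem hx']
        positivity
      · rw [hgw, indicator_of_notMem hx']
    have e2 : ∫ r in Ioi a, r ^ 2 * Sph gw r ≤ ∫ r in Ioi (0 : ℝ), r ^ 2 * Sph gw r := by
      refine setIntegral_mono_set hpg.1 ?_ (Ioi_subset_Ioi ha0.le).eventuallyLE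
      rw [EventuallyLE, ae_restrict_iff' measurableSet_Ioi]
      filter_upwards [ae_polar hgw0] with r h1 hr
      exact mul_nonneg (sq_nonneg r) (integral_nonneg_of_ae (h1 hr))
    have e3 : ∫ x, gw x = ∫ x in {x : R3 | a < ‖x‖}, Real.exp (2 * k * ‖x‖) / ‖x‖ ^ 6 * n x := by
      rw [hgw, integral_indicator hmeas]
    rw [e1, integral_const_mul, div_eq_inv_mul]
    refine mul_le_mul_of_nonneg_left ?_ (inv_nonneg.2 hA.le)
    rw [← hpg.2, e3] at e2
    exact e2.trans hK
  -- (iv) local integrability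
  have hwm : Measurable w := (measurable_id.pow_const 2).mul hG
  have hNn : IntegrableOn (fun r : ℝ => r ^ 2 * Sph n r) (Ioi 0) := (integral_polar hn).1
  have hwint : ∀ c d : ℝ, 0 < c → IntegrableOn w (Icc c d) := by
    intro c d hc
    have h1 : IntegrableOn (fun r : ℝ => r ^ 2 * Sph n r / Ac + 1) (Icc c d) :=
      ((hNn.mono_set fun x hx => lt_of_lt_of_le hc hx.1).div_const _).add
        (integrableOn_const (by simp))
    refine Integrable.mono' h1 hwm.aestronglyMeasurable.restrict ?_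
    rw [ae_restrict_iff' measurableSet_Icc]
    filter_upwards [hwN, hSn] with r h2 h3 hr
    have hr0 : 0 < r := hc.trans_le hr.1
    have h4 := h2 hr0
    have h5 := h3 hr0
    have e2 : N r ^ 2 = r ^ 2 * Sph n r / Ac := Real.sq_sqrt (by positivity)
    rw [Real.norm_eq_abs]
    nlinarith [sq_nonneg (N r - 1)]
  have hwli : LocallyIntegrableOn w (Ioi a) := by
    intro r hr
    have hr : a < r := hr
    refine ⟨Icc ((a + r) / 2) (r + 1), mem_nhdsWithin_of_mem_nhds
      (Icc_mem_nhds (by linarith) (by linarith)), hwint _ _ (by linarith)⟩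
  set ρ : ℝ → ℝ := fun r => 2 * lam / Ac * ρ0 r with hρ
  have hρi : IntegrableOn ρ (Ioi a) := (hρ0i.mono_set (Ioi_subset_Ioi ha0.le)).const_mul _
  have hρli : LocallyIntegrableOn ρ (Ioi a) := hρi.locallyIntegrableOn
  set h : ℝ → ℝ := fun r => (k ^ 2 - 2 * k * s / r + 2 / r ^ 2) * w r + ρ r with hh
  have hhli : LocallyIntegrableOn h (Ioi a) := by
    refine LocallyIntegrableOn.add ?_ hρli
    refine hwli.continuousOn_mul ?_ isOpen_Ioi.isLocallyClosed
    have hne : ∀ x ∈ Ioi a, x ≠ 0 := fun x hx => (ha0.trans hx).ne'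
    exact ((continuousOn_const.sub (continuousOn_const.div continuousOn_id hne))).add
      (continuousOn_const.div (continuousOn_id.pow 2) fun x hx => pow_ne_zero 2 (hne x hx))
  -- (vi) the weak equation
  have hweak : ∀ η, TestOn a η → ∫ x, deriv (deriv η) x * w x = ∫ x, η x * h x := by
    intro η hη
    exact weak_radial hk ha0 (by linarith) hd hdL hf hfi DE hwdef hρ0 (by rw [hh, hρ]) hwli hhli hη
  obtain ⟨W, W1, hW1, hW2, hW3, hW4⟩ := weak_ode hwli hhli hweak
  refine ⟨W, W1, h, ρ, N, ?_, ?_⟩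
  · exact
      { ha := ha0.le
        hd := hW1
        hw1 := hW2
        hh := hhli
        hint := hW3
        hk := hk
        ha1 := ha
        hs1 := hs1
        hs2 := hs2
        hC := by positivity
        heq := by
          filter_upwards [hW4] with r h1 har
          rw [hh, ← h1 har]
        hwN := by
          filter_upwards [hW4, hwN] with r h1 h2 har
          rw [← h1 har]
          exact h2 (ha0.trans har)
        hρ := hρN
        hM := hMi
        hK := hMK }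
  · filter_upwards [hW4] with r h1 har
    rw [← h1 har]

end

end Vale.Agent.P363.B5
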