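import Vale.Agent.P363.R.B5.Defs

/-! STATEMENTS of the pieces of block B5 (this file contains sorries and is never imported by a
hand-in). -/

namespace Vale.Agent.P363.B5.Spec

open MeasureTheory Set Filter Topology Metric
open Vale.Agent.P363.Stmt
open Vale.Agent.P363.R.Sob
open Vale.Agent.P363.R.Top
open Vale.Agent.P363.B5
open scoped ContDiff ComplexConjugate

noncomputable section

/-- B5.1 + B5.2 (helper924): uniform weighted integral bound. -/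
theorem agmon (κ : ℝ) : ∃ ε > 0, ∃ (K R0 : ℝ), 1 ≤ R0 ∧ ∀ lam, 0 < lam → lam < ε →
    ∀ (Φ : ElectronState 4) (Ψ : ElectronState 5), AtomPair κ lam ε Φ Ψ →
      IntegrableOn (fun x => Real.exp (2 * kOf lam Φ Ψ * ‖x‖) / ‖x‖ ^ 6 * density Ψ x)
          {x | R0 < ‖x‖} ∧
        ∫ x in {x | R0 < ‖x‖}, Real.exp (2 * kOf lam Φ Ψ * ‖x‖) / ‖x‖ ^ 6 * density Ψ x ≤ K :=
  sorry

/-- B5.3 (helper924): the multipole bound for the ion. -/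
theorem mult_bound (κ : ℝ) : ∃ ε > 0, ∃ C : ℝ, 0 ≤ C ∧ ∀ lam, 0 < lam → lam < ε →
    ∀ (Φ : ElectronState 4) (Ψ : ElectronState 5), AtomPair κ lam ε Φ Ψ →
      ∀ x : R3, 1 ≤ ‖x‖ → (∀ s, Integrable fun y : Conf 4 => (mult x y) ^ 2 * ‖Φ.amp s y‖ ^ 2) ∧
        ∑ s, ∫ y : Conf 4, (mult x y) ^ 2 * ‖Φ.amp s y‖ ^ 2 ≤ (C / ‖x‖ ^ 2) ^ 2 :=
  sorry

/-- B5.4 (helper943): the equation of the Dyson amplitude. -/
theorem dyson_eq {κ lam ε : ℝ} (hl : 0 < lam) {Φ : ElectronState 4} {Ψ : ElectronState 5}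
    (P : AtomPair κ lam ε Φ Ψ) (ζ : R3 → ℝ) (hζ : Test ζ) (h0 : (0 : R3) ∉ tsupport ζ) :
    -(1 / 2 : ℂ) * (∫ x, (lapT ζ x : ℂ) * dyson Φ Ψ 0 x) +
      ∫ x, (((energy (pot lam) Φ - energy (pot lam) Ψ - (1 - 4 * lam) / ‖x‖ : ℝ)) : ℂ) *
        ((ζ x : ℂ) * dyson Φ Ψ 0 x) =
      -(lam : ℂ) * ∫ x, (ζ x : ℂ) * rem Φ Ψ x :=
  sorry

/-- the remainder is bounded by `C |x|⁻² √n` (from B5.3 and Cauchy-Schwarz; helper943 or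
helper924), and is measurable. -/
theorem rem_bound (κ : ℝ) : ∃ ε > 0, ∃ C : ℝ, 0 ≤ C ∧ ∀ lam, 0 < lam → lam < ε →
    ∀ (Φ : ElectronState 4) (Ψ : ElectronState 5), AtomPair κ lam ε Φ Ψ →
      AEStronglyMeasurable (rem Φ Ψ) volume ∧
        ∀ᵐ x, 1 ≤ ‖x‖ → ‖rem Φ Ψ x‖ ≤ C / ‖x‖ ^ 2 * Real.sqrt (density Ψ x) :=
  sorry

/-- `5 |dyson|² ≤ n` (Cauchy-Schwarz, `‖Φ‖ = 1`). -/
theorem dyson_le {Φ : ElectronState 4} {Ψ : ElectronState 5} (h : normSq Φ = 1) :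
    ∀ᵐ x, 5 * ‖dyson Φ Ψ 0 x‖ ^ 2 ≤ density Ψ x :=
  sorry

/-- B5.5 (helper545): two-sided asymptotics of the Dyson amplitude. -/
theorem two_sided (κ : ℝ) (hκ : 0 < κ) : ∃ ε > 0, ∀ lam, 0 < lam → lam < ε →
    ∀ (Φ : ElectronState 4) (Ψ : ElectronState 5), AtomPair κ lam ε Φ Ψ →
      ∃ c1 C1 R, TwoSided (kOf lam Φ Ψ) (sOf lam Φ Ψ) c1 C1 R (dyson Φ Ψ 0) :=
  sorry

/-- B5.6 (helper801): the `Q` channel. -/
theorem q_small (κ : ℝ) : ∃ ε > 0, ∀ lam, 0 < lam → lam < ε →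
    ∀ (Φ : ElectronState 4) (Ψ : ElectronState 5), AtomPair κ lam ε Φ Ψ →
      ∀ c1 C1 R, TwoSided (kOf lam Φ Ψ) (sOf lam Φ Ψ) c1 C1 R (dyson Φ Ψ 0) →
        ∃ C R', QSmall (kOf lam Φ Ψ) (sOf lam Φ Ψ) C R' (dyson Φ Ψ 0) (density Ψ) :=
  sorry

/-- B5.8 (FREE): the two bounds give `FarKink`. -/
theorem farKink_of {k s c1 C1 R C R' : ℝ} (hk : 1 / 4 ≤ k) (hs : 1 ≤ s) (hs' : s ≤ 3)
    {d : R3 → ℂ} {n : R3 → ℝ} (hd : AEStronglyMeasurable d volume)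
    (hn : ∀ᵐ x, 5 * ‖d x‖ ^ 2 ≤ n x) (hn' : Integrable n)
    (h1 : TwoSided k s c1 C1 R d) (h2 : QSmall k s C R' d n) : FarKink n :=
  sorry

/-- B5 (assembly). -/
theorem b5_far (κ : ℝ) (hκ : 0 < κ) : ∃ ε > 0, ∀ lam, 0 < lam → lam < ε →
    ∀ (Φ : ElectronState 4) (Ψ : ElectronState 5), AtomPair κ lam ε Φ Ψ →
      FarKink (density Ψ) :=
  sorry

end

end Vale.Agent.P363.B5.Spec
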