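import Vale.Agent.P363.R.B5.Defs
import Vale.Agent.P363.R.B5.RadialRed

/-! B5.5: two-sided asymptotics of the Dyson amplitude. -/

namespace Vale.Agent.P363.B5

open MeasureTheory Set Filter Topology Metric
open Vale.Agent.P363.Stmt
open Vale.Agent.P363.R.Sob
open Vale.Agent.P363.R.Top
open scoped ContDiff ComplexConjugate Interval

noncomputable section

/-- almost everywhere statements about the norm -/
theorem ae_norm {P : ℝ → Prop} (h : ∀ᵐ r : ℝ, 0 < r → P r) : ∀ᵐ x : R3, P ‖x‖ := by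
  have h1 : ∀ᵐ r : Ioi (0 : ℝ) ∂rad, P r := ae_rad.2 h
  have h2 : ∀ᵐ p ∂(sig.prod rad), P p.2 := Measure.quasiMeasurePreserving_snd.ae h1
  have h3 : ∀ᵐ x : ({0}ᶜ : Set R3) ∂((volume : Measure R3).comap (↑)), P ‖(x : R3)‖ := by
    have := mp_hom.quasiMeasurePreserving.ae h2
    simpa only [homeomorphUnitSphereProd_apply_snd_coe] using this
  have h4 : MeasurableEmbedding ((↑) : ({0}ᶜ : Set R3) → R3) :=
    MeasurableEmbedding.subtype_coe (measurableSet_singleton _).compl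
  have h5 := (h4.ae_map_iff (μ := (volume : Measure R3).comap (↑)) (p := fun x => P ‖x‖)).2 h3
  rw [h4.map_comap, Subtype.range_coe, restrict_compl_singleton] at h5
  exact h5

theorem FluxData.mono_C {k s a C C' K : ℝ} {w w1 h ρ N : ℝ → ℝ}
    (D : FluxData k s a C K w w1 h ρ N) (hCC : C ≤ C') : FluxData k s a C' K w w1 h ρ N where
  toIsSol := D.toIsSol
  hk := D.hk
  ha1 := D.ha1
  hs1 := D.hs1
  hs2 := D.hs2
  hC := D.hC.trans hCC
  heq := D.heq
  hwN := D.hwN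
  hρ := by
    filter_upwards [D.hρ, D.hwN] with t h1 h2 hat
    have h3 : 0 ≤ N t := (abs_nonneg _).trans (h2 hat)
    refine (h1 hat).trans ?_
    gcongr
  hM := D.hM
  hK := D.hK

/-- one real component of the Dyson amplitude gives flux data -/
theorem fluxData_L (L : ℂ →L[ℝ] ℝ) (hL : ∀ z, |L z| ≤ ‖z‖) {k s a C K lam : ℝ} (hk : 0 < k)
    (ha : 1 ≤ a) (hs1 : 7 / 4 ≤ s) (hs2 : s ≤ 9 / 4) (hC : 0 ≤ C) (hlam : 0 ≤ lam)
    {d Rm : R3 → ℂ} {G : ℝ → ℂ}
    (hG : Measurable G) (hd : ∀ᵐ x, d x = G ‖x‖ * (x 2 : ℂ)) (hdL : MemLp d 2 volume)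
    {n : R3 → ℝ} (hn : Integrable n) (hn0 : ∀ᵐ x, 0 ≤ n x) (hdn : ∀ᵐ x, ‖d x‖ ^ 2 ≤ n x)
    (hRm : AEStronglyMeasurable Rm volume)
    (hR : ∀ᵐ x, a < ‖x‖ → ‖Rm x‖ ≤ C / ‖x‖ ^ 2 * Real.sqrt (n x))
    (DE : ∀ ζ : R3 → ℝ, Test ζ → (0 : R3) ∉ tsupport ζ →
      -(1 / 2 : ℂ) * (∫ x, (lapT ζ x : ℂ) * d x) +
        ∫ x, ((k ^ 2 / 2 - k * s / ‖x‖ : ℝ) : ℂ) * ((ζ x : ℂ) * d x) =
        -(lam : ℂ) * ∫ x, (ζ x : ℂ) * Rm x)
    (hw : IntegrableOn (fun x => Real.exp (2 * k * ‖x‖) / ‖x‖ ^ 6 * n x) {x | a < ‖x‖})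
    (hK : ∫ x in {x | a < ‖x‖}, Real.exp (2 * k * ‖x‖) / ‖x‖ ^ 6 * n x ≤ K) :
    ∃ w w1 h ρ N, FluxData k s a (2 * lam * C) (K / Ac) w w1 h ρ N ∧
      ∀ᵐ r, a < r → w r = r ^ 2 * L (G r) := by
  have ha0 : 0 < a := by linarith
  have hmeas : MeasurableSet {x : R3 | a < ‖x‖} := measurableSet_lt measurable_const measurable_norm
  have hLr : ∀ (c : ℝ) (z : ℂ), L ((c : ℂ) * z) = c * L z := by
    intro c z
    have : (c : ℂ) * z = c • z := by simp
    rw [this, map_smul, smul_eq_mul]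
  have hdli : LocallyIntegrable d volume := hdL.locallyIntegrable (by norm_num)
  have hLint : ∀ {f : R3 → ℂ}, Integrable f → ∫ x, L (f x) = L (∫ x, f x) := fun hf =>
    L.integral_comp_comm hf
  refine fluxData_of_radial (d := fun x => L (d x)) (Rm := fun x => L (Rm x))
    (G := fun r => L (G r)) hk ha hs1 hs2 hC hlam (L.continuous.measurable.comp hG) ?_ ?_ hn hn0 ?_
    (L.continuous.comp_aestronglyMeasurable hRm) ?_ ?_ hw hK
  · filter_upwards [hd] with x hx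
    rw [hx, mul_comm, hLr, mul_comm]
  · have : MemLp (fun x => L (d x)) 2 volume := L.comp_memLp' hdL
    exact this.locallyIntegrable (by norm_num)
  · filter_upwards [hdn] with x hx
    refine le_trans ?_ hx
    rw [← sq_abs]
    exact pow_le_pow_left₀ (abs_nonneg _) (hL _) 2
  · filter_upwards [hR] with x hx hax
    exact (hL _).trans (hx hax)
  · intro ζ hζ hζ0 hζa
    have i1 : Integrable (fun x => (lapT ζ x : ℂ) * d x) := by
      have h1 : ∀ k : Fin 3, Integrable (fun x =>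
          ((fderiv ℝ (fun y => fderiv ℝ ζ y (ev k)) x (ev k) : ℝ) : ℂ) * d x) := fun k => by
        have := ((hζ.fderiv (ev k)).fderiv (ev k)).integrable_smul hdli
        simpa using this
      have h2 : (fun x => (lapT ζ x : ℂ) * d x) = fun x => ∑ k : Fin 3,
          ((fderiv ℝ (fun y => fderiv ℝ ζ y (ev k)) x (ev k) : ℝ) : ℂ) * d x := by
        funext x
        rw [lapT, ← Finset.sum_mul]
        push_cast
        rfl
      rw [h2]
      exact integrable_finsetSum _ fun k _ => h1 k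
    have i0 : Integrable (fun x => (ζ x : ℂ) * d x) := by
      have := hζ.integrable_smul hdli
      simpa using this
    have i2 : Integrable (fun x => ((k ^ 2 / 2 - k * s / ‖x‖ : ℝ) : ℂ) * ((ζ x : ℂ) * d x)) := by
      refine Integrable.mono' (g := fun x => (k ^ 2 / 2 + k * s / a) * ‖(ζ x : ℂ) * d x‖)
        (i0.norm.const_mul _) ?_ (Eventually.of_forall fun x => ?_)
      · refine AEStronglyMeasurable.mul ?_ i0.1
        exact (by fun_prop : Measurable fun x : R3 =>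
          ((k ^ 2 / 2 - k * s / ‖x‖ : ℝ) : ℂ)).aestronglyMeasurable
      · rw [norm_mul]
        by_cases hx : ‖x‖ ≤ a
        · rw [hζa x hx]
          simp
        · have hx : a < ‖x‖ := not_le.1 hx
          refine mul_le_mul_of_nonneg_right ?_ (norm_nonneg _)
          have hs0 : 0 < s := by linarith
          have h1 : 0 ≤ k * s / ‖x‖ := by positivity
          have h2 : k * s / ‖x‖ ≤ k * s / a :=
            div_le_div_of_nonneg_left (by positivity) ha0 hx.le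
          rw [Complex.norm_real, Real.norm_eq_abs, abs_le]
          constructor <;> nlinarith [sq_nonneg k]
    have i3 : Integrable (fun x => (ζ x : ℂ) * Rm x) := by
      obtain ⟨B, hB⟩ := hζ.continuous.bounded_above_of_compact_support hζ.2
      have hz2 : Integrable (fun x => ‖ζ x‖ ^ 2) := by
        refine Continuous.integrable_of_hasCompactSupport (hζ.continuous.norm.pow 2) ?_
        refine hζ.2.mono fun x hx => ?_
        intro h
        apply hx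
        simp [h]
      refine Integrable.mono' (g := fun x => C * (n x + ‖ζ x‖ ^ 2)) ((hn.add hz2).const_mul C)
        ((Complex.continuous_ofReal.comp hζ.continuous).aestronglyMeasurable.mul hRm) ?_
      filter_upwards [hR, hn0] with x h1 h2
      rw [norm_mul, Complex.norm_real]
      by_cases hx : ‖x‖ ≤ a
      · rw [hζa x hx]
        simp only [norm_zero, zero_mul]
        positivity
      · have hx : a < ‖x‖ := not_le.1 hx
        have h3 := h1 hx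
        have h4 : C / ‖x‖ ^ 2 ≤ C := by
          refine div_le_self hC ?_
          have : 1 ≤ ‖x‖ := by linarith
          nlinarith
        have h5 : ‖Rm x‖ ≤ C * Real.sqrt (n x) := h3.trans (by gcongr)
        have h6 := Real.sq_sqrt h2
        calc ‖ζ x‖ * ‖Rm x‖ ≤ ‖ζ x‖ * (C * Real.sqrt (n x)) := by gcongr
          _ = C * (‖ζ x‖ * Real.sqrt (n x)) := by ring
          _ ≤ C * (n x + ‖ζ x‖ ^ 2) := by
              refine mul_le_mul_of_nonneg_left ?_ hC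
              nlinarith [sq_nonneg (‖ζ x‖ - Real.sqrt (n x)), norm_nonneg (ζ x),
                Real.sqrt_nonneg (n x), mul_nonneg (norm_nonneg (ζ x)) (Real.sqrt_nonneg (n x))]
    have key := congrArg L (DE ζ hζ hζ0)
    have e0 : (-(1 / 2 : ℂ)) = ((-(1 / 2) : ℝ) : ℂ) := by push_cast; ring
    have e1 : (-(lam : ℂ)) = ((-lam : ℝ) : ℂ) := by push_cast; ring
    rw [map_add, e0, e1, hLr, hLr, ← hLint i1, ← hLint i2, ← hLint i3] at key
    simp only [hLr] at key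
    exact key

/-- the unperturbed Dyson amplitude -/
theorem orb4_eq (x : R3) : orb 4 x = (1 / (4 * Real.sqrt (2 * Real.pi))) * Real.exp (-‖x‖ / 2) * x 2 := by
  simp only [orb]
  ring

/-- closeness of the radial functions -/
theorem radial_close (L : ℂ →L[ℝ] ℝ) (hL : ∀ z, |L z| ≤ ‖z‖) (hLr : ∀ c : ℝ, L (c : ℂ) = c)
    {κ ε δ : ℝ} (hδ : 0 < δ) (hεδ : ε ≤ Ac * δ ^ 2)
    {d : R3 → ℂ} {G : ℝ → ℂ} (hG : Measurable G) (hd : ∀ᵐ x, d x = G ‖x‖ * (x 2 : ℂ))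
    (hdL : MemLp d 2 volume) (hcl : ∫ x, ‖d x - ((κ * orb 4 x : ℝ) : ℂ)‖ ^ 2 ≤ ε)
    (ho : MemLp (fun x => orb 4 x) 2 volume)
    {w : ℝ → ℝ} {a : ℝ} (ha : 0 < a) (hw : ∀ᵐ r, a < r → w r = r ^ 2 * L (G r))
    {R : ℝ} (hR : a < R) (hwc : ContinuousOn w (Icc R (R + 1))) :
    ∫ t in R..R + 1, |w t - w0f (κ / (4 * Real.sqrt (2 * Real.pi))) t| ≤ δ := by
  have hA := Ac_pos
  set κ' := κ / (4 * Real.sqrt (2 * Real.pi)) with hκ'
  have hR0 : 0 < R := ha.trans hR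
  -- the squared difference
  set F : ℝ → ℝ := fun r => (L (G r) - κ' * Real.exp (-r / 2)) ^ 2 with hF
  have hd2 : Integrable (fun x => ‖d x - ((κ * orb 4 x : ℝ) : ℂ)‖ ^ 2) := by
    have h1 : MemLp (fun x => ((κ * orb 4 x : ℝ) : ℂ)) 2 volume := by
      have := (ho.const_mul κ).ofReal (K := ℂ)
      exact this
    exact (hdL.sub h1).integrable_norm_pow (by norm_num)
  have hFle : ∀ᵐ x, F ‖x‖ * (x 2) ^ 2 ≤ ‖d x - ((κ * orb 4 x : ℝ) : ℂ)‖ ^ 2 := by
    filter_upwards [hd] with x hx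
    have e1 : L (d x - ((κ * orb 4 x : ℝ) : ℂ)) = (L (G ‖x‖) - κ' * Real.exp (-‖x‖ / 2)) * x 2 := by
      rw [map_sub, hLr, hx, orb4_eq]
      have : G ‖x‖ * (x 2 : ℂ) = (x 2) • G ‖x‖ := by rw [mul_comm]; simp
      rw [this, map_smul, smul_eq_mul, hκ']
      ring
    have e2 : F ‖x‖ * (x 2) ^ 2 = |L (d x - ((κ * orb 4 x : ℝ) : ℂ))| ^ 2 := by
      rw [sq_abs, e1, hF]
      ring
    rw [e2]
    exact pow_le_pow_left₀ (abs_nonneg _) (hL _) 2
  have hFm : Measurable F := by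
    have h1 : Measurable fun r => L (G r) := L.continuous.measurable.comp hG
    rw [hF]
    exact (h1.sub (by fun_prop)).pow_const 2
  have hFi : Integrable (fun x : R3 => F ‖x‖ * (x 2) ^ 2) := by
    refine Integrable.mono' hd2 ?_ ?_
    · exact ((hFm.comp measurable_norm).mul (by fun_prop)).aestronglyMeasurable
    · filter_upwards [hFle] with x hx
      rw [Real.norm_of_nonneg (mul_nonneg (sq_nonneg _) (sq_nonneg _))]
      exact hx
  have hP := integral_polar hFi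
  have hS : ∀ r ∈ Ioi (0 : ℝ), r ^ 2 * Sph (fun x => F ‖x‖ * (x 2) ^ 2) r
      = Ac * (r ^ 2 * L (G r) - w0f κ' r) ^ 2 := by
    intro r hr
    have hr : 0 < r := hr
    rw [Sph_radial F hr, hF, w0f]
    ring
  have hI : IntegrableOn (fun r => Ac * (r ^ 2 * L (G r) - w0f κ' r) ^ 2) (Ioi 0) :=
    hP.1.congr_fun hS measurableSet_Ioi
  have hle : ∫ r in Ioi (0 : ℝ), Ac * (r ^ 2 * L (G r) - w0f κ' r) ^ 2 ≤ Ac * δ ^ 2 := by
    rw [← setIntegral_congr_fun measurableSet_Ioi hS, ← hP.2]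
    refine le_trans (integral_mono_ae hFi hd2 hFle) (hcl.trans hεδ)
  -- the interval
  have hRR : R ≤ R + 1 := by linarith
  have hu : uIcc R (R + 1) = Icc R (R + 1) := uIcc_of_le hRR
  have hcu : ContinuousOn (fun t => w t - w0f κ' t) (Icc R (R + 1)) :=
    hwc.sub (continuous_w0f κ').continuousOn
  have i1 : IntervalIntegrable (fun t => (w t - w0f κ' t) ^ 2) volume R (R + 1) :=
    ((hcu.pow 2).mono hu.le).intervalIntegrable
  have i2 : IntervalIntegrable (fun t => |w t - w0f κ' t|) volume R (R + 1) :=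
    (hcu.abs.mono hu.le).intervalIntegrable
  have hsub : Ioc R (R + 1) ⊆ Ioi (0 : ℝ) := fun x hx => hR0.trans hx.1
  have h2 : ∫ t in R..R + 1, (w t - w0f κ' t) ^ 2 ≤ δ ^ 2 := by
    have e1 : ∫ t in R..R + 1, (w t - w0f κ' t) ^ 2
        = ∫ t in Ioc R (R + 1), (t ^ 2 * L (G t) - w0f κ' t) ^ 2 := by
      rw [intervalIntegral.integral_of_le hRR]
      refine integral_congr_ae ?_
      rw [EventuallyEq, ae_restrict_iff' measurableSet_Ioc]
      filter_upwards [hw] with t ht htI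
      rw [ht (hR.trans htI.1)]
    have e2 : Ac * ∫ t in Ioc R (R + 1), (t ^ 2 * L (G t) - w0f κ' t) ^ 2 ≤ Ac * δ ^ 2 := by
      rw [← integral_const_mul]
      refine le_trans ?_ hle
      refine setIntegral_mono_set hI (Eventually.of_forall fun t => ?_) hsub.eventuallyLE
      simp only [Pi.zero_apply]
      positivity
    rw [e1]
    exact le_of_mul_le_mul_left e2 hA
  have h3 : ∀ t ∈ Icc R (R + 1), |w t - w0f κ' t| ≤ 1 / 2 * (δ + δ⁻¹ * (w t - w0f κ' t) ^ 2) := by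
    intro t _
    set u := w t - w0f κ' t
    have e1 : 0 ≤ δ⁻¹ * (δ - |u|) ^ 2 := by positivity
    have e2 : δ⁻¹ * (δ - |u|) ^ 2 = δ - 2 * |u| + δ⁻¹ * u ^ 2 := by
      rw [← sq_abs u]
      field_simp
      ring
    linarith
  have h4 := intervalIntegral.integral_mono_on hRR i2
    ((intervalIntegrable_const.add (i1.const_mul δ⁻¹)).const_mul (1 / 2 : ℝ)) h3
  refine h4.trans ?_
  rw [intervalIntegral.integral_const_mul, intervalIntegral.integral_add intervalIntegrable_const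
    (i1.const_mul δ⁻¹), intervalIntegral.integral_const_mul, intervalIntegral.integral_const]
  have h5 : δ⁻¹ * ∫ t in R..R + 1, (w t - w0f κ' t) ^ 2 ≤ δ := by
    calc δ⁻¹ * ∫ t in R..R + 1, (w t - w0f κ' t) ^ 2 ≤ δ⁻¹ * δ ^ 2 := by gcongr
      _ = δ := by field_simp
  simp only [add_sub_cancel_left, smul_eq_mul, one_mul]
  linarith

/-- the numbers `k`, `s` -/
theorem kOf_near {κ lam ε : ℝ} {Φ : ElectronState 4} {Ψ : ElectronState 5}
    (P : AtomPair κ lam ε Φ Ψ) (hε : ε < 1 / 16) :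
    0 < kOf lam Φ Ψ ∧ kOf lam Φ Ψ ^ 2 / 2 = energy (pot lam) Φ - energy (pot lam) Ψ ∧
      |kOf lam Φ Ψ ^ 2 / 2 - 1 / 8| ≤ 2 * ε := by
  have h1 := abs_le.1 P.E4
  have h2 := abs_le.1 P.E5
  have h3 : 0 < 2 * (energy (pot lam) Φ - energy (pot lam) Ψ) := by linarith
  have hsq : kOf lam Φ Ψ ^ 2 = 2 * (energy (pot lam) Φ - energy (pot lam) Ψ) := Real.sq_sqrt h3.le
  refine ⟨Real.sqrt_pos.2 h3, by rw [hsq]; ring, ?_⟩
  rw [hsq, abs_le]
  constructor <;> linarith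

theorem _root_.Vale.Agent.P363.R.Top.AtomPair.mono {κ lam ε ε' : ℝ} {Φ : ElectronState 4} {Ψ : ElectronState 5}
    (P : AtomPair κ lam ε Φ Ψ) (h : ε ≤ ε') : AtomPair κ lam ε' Φ Ψ where
  gsΦ := P.gsΦ
  gsΨ := P.gsΨ
  E4 := P.E4.trans h
  E5 := P.E5.trans h
  gap := P.gap
  radial := P.radial
  zero := P.zero
  close := P.close.trans h
  dyson_mem := P.dyson_mem

/-- B5.5, modulo the other pieces of the block. -/
theorem two_sided_of (κ : ℝ) (hκ : 0 < κ)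
    (ho : MemLp (fun x => orb 4 x) 2 volume)
    (hAg : ∃ ε > 0, ∃ (K R0 : ℝ), 1 ≤ R0 ∧ ∀ lam, 0 < lam → lam < ε →
      ∀ (Φ : ElectronState 4) (Ψ : ElectronState 5), AtomPair κ lam ε Φ Ψ →
        IntegrableOn (fun x => Real.exp (2 * kOf lam Φ Ψ * ‖x‖) / ‖x‖ ^ 6 * density Ψ x)
          {x | R0 < ‖x‖} ∧
        ∫ x in {x | R0 < ‖x‖}, Real.exp (2 * kOf lam Φ Ψ * ‖x‖) / ‖x‖ ^ 6 * density Ψ x ≤ K)
    (hRem : ∃ ε > 0, ∃ C : ℝ, 0 ≤ C ∧ ∀ lam, 0 < lam → lam < ε →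
      ∀ (Φ : ElectronState 4) (Ψ : ElectronState 5), AtomPair κ lam ε Φ Ψ →
        AEStronglyMeasurable (rem Φ Ψ) volume ∧
        ∀ᵐ x, 1 ≤ ‖x‖ → ‖rem Φ Ψ x‖ ≤ C / ‖x‖ ^ 2 * Real.sqrt (density Ψ x))
    (hDy : ∀ {lam ε : ℝ}, 0 < lam → ∀ {Φ : ElectronState 4} {Ψ : ElectronState 5},
      AtomPair κ lam ε Φ Ψ → ∀ (ζ : R3 → ℝ), Test ζ → (0 : R3) ∉ tsupport ζ →
      -(1 / 2 : ℂ) * (∫ x, (lapT ζ x : ℂ) * dyson Φ Ψ 0 x) +
      ∫ x, (((energy (pot lam) Φ - energy (pot lam) Ψ - (1 - 4 * lam) / ‖x‖ : ℝ)) : ℂ) *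
        ((ζ x : ℂ) * dyson Φ Ψ 0 x) = -(lam : ℂ) * ∫ x, (ζ x : ℂ) * rem Φ Ψ x)
    (hLe : ∀ {Φ : ElectronState 4} {Ψ : ElectronState 5}, normSq Φ = 1 →
      ∀ᵐ x, 5 * ‖dyson Φ Ψ 0 x‖ ^ 2 ≤ density Ψ x)
    (hden : ∀ Ψ : ElectronState 5, Integrable (density Ψ)) :
    ∃ ε > 0, ∀ lam, 0 < lam → lam < ε →
      ∀ (Φ : ElectronState 4) (Ψ : ElectronState 5), AtomPair κ lam ε Φ Ψ →
      ∃ c1 C1 R, TwoSided (kOf lam Φ Ψ) (sOf lam Φ Ψ) c1 C1 R (dyson Φ Ψ 0) := by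
  obtain ⟨εA, hεA, K, R0, hR0, HA⟩ := hAg
  obtain ⟨εR, hεR, C, hC, HR⟩ := hRem
  by_contra hcon
  have H : ∀ ε > 0, ∃ lam, 0 < lam ∧ lam < ε ∧ ∃ (Φ : ElectronState 4) (Ψ : ElectronState 5),
      AtomPair κ lam ε Φ Ψ ∧
      ¬ ∃ c1 C1 R, TwoSided (kOf lam Φ Ψ) (sOf lam Φ Ψ) c1 C1 R (dyson Φ Ψ 0) := by
    intro ε hε
    by_contra h
    refine hcon ⟨ε, hε, fun lam h1 h2 Φ Ψ P => ?_⟩
    by_contra h3
    exact h ⟨lam, h1, h2, Φ, Ψ, P, h3⟩
  set e : ℕ → ℝ := fun j => min (min εA εR) (min (1 / 32) (1 / ((j : ℝ) + 1))) with he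
  have he0 : ∀ j, 0 < e j := fun j => by
    rw [he]
    positivity
  choose lam hl0 hl1 Φ Ψ P hnot using fun j => H (e j) (he0 j)
  have heA : ∀ j, e j ≤ εA := fun j => (min_le_left _ _).trans (min_le_left _ _)
  have heR : ∀ j, e j ≤ εR := fun j => (min_le_left _ _).trans (min_le_right _ _)
  have he32 : ∀ j, e j ≤ 1 / 32 := fun j => (min_le_right _ _).trans (min_le_left _ _)
  have hej : ∀ j, e j ≤ 1 / ((j : ℝ) + 1) := fun j => (min_le_right _ _).trans (min_le_right _ _)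
  have helim : Tendsto e atTop (𝓝 0) :=
    squeeze_zero (fun j => (he0 j).le) hej tendsto_one_div_add_atTop_nhds_zero_nat
  have hllim : Tendsto lam atTop (𝓝 0) :=
    squeeze_zero (fun j => (hl0 j).le) (fun j => (hl1 j).le) helim
  set k : ℕ → ℝ := fun j => kOf (lam j) (Φ j) (Ψ j) with hk
  set s : ℕ → ℝ := fun j => sOf (lam j) (Φ j) (Ψ j) with hs
  have hkn : ∀ j, 0 < k j ∧ k j ^ 2 / 2 = energy (pot (lam j)) (Φ j) - energy (pot (lam j)) (Ψ j) ∧
      |k j ^ 2 / 2 - 1 / 8| ≤ 2 * e j := fun j => kOf_near (P j) ((he32 j).trans_lt (by norm_num))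
  have hklim : Tendsto k atTop (𝓝 (1 / 2)) := by
    have h1 : Tendsto (fun j => k j ^ 2 / 2 - 1 / 8) atTop (𝓝 0) := by
      refine squeeze_zero_norm (fun j => (hkn j).2.2) ?_
      simpa using helim.const_mul 2
    have h2 : Tendsto (fun j => Real.sqrt (2 * ((k j ^ 2 / 2 - 1 / 8) + 1 / 8))) atTop
        (𝓝 (Real.sqrt (2 * (0 + 1 / 8)))) :=
      ((h1.add_const (1 / 8)).const_mul 2).sqrt
    have h3 : Real.sqrt (2 * (0 + 1 / 8)) = 1 / 2 := by
      rw [show (2 * (0 + 1 / 8) : ℝ) = (1 / 2) ^ 2 by norm_num, Real.sqrt_sq (by norm_num)]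
    rw [h3] at h2
    refine h2.congr fun j => ?_
    rw [show 2 * ((k j ^ 2 / 2 - 1 / 8) + 1 / 8) = k j ^ 2 by ring, Real.sqrt_sq (hkn j).1.le]
  have hslim : Tendsto s atTop (𝓝 2) := by
    have h1 : Tendsto (fun j => (1 - 4 * lam j) / k j) atTop (𝓝 ((1 - 4 * 0) / (1 / 2))) :=
      ((hllim.const_mul 4).const_sub 1).div hklim (by norm_num)
    have h2 : (1 - 4 * 0) / (1 / 2) = (2 : ℝ) := by norm_num
    rw [h2] at h1
    exact h1
  have hks : ∀ j, k j * s j = 1 - 4 * lam j := fun j => by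
    have := (hkn j).1.ne'
    rw [hs]
    simp only [sOf]
    rw [hk] at this ⊢
    field_simp
  have hsr : ∀ᶠ j in atTop, 7 / 4 ≤ s j ∧ s j ≤ 9 / 4 := by
    filter_upwards [(tendsto_order.1 hslim).1 (7 / 4) (by norm_num),
      (tendsto_order.1 hslim).2 (9 / 4) (by norm_num)] with j h1 h2 using ⟨h1.le, h2.le⟩
  choose G hGm hGr using fun j => (P j).radial
  have hA := Ac_pos
  -- flux data of a real component
  have hflux : ∀ (L : ℂ →L[ℝ] ℝ), (∀ z, |L z| ≤ ‖z‖) → ∀ j, ∃ w w1 h ρ N,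
      (7 / 4 ≤ s j ∧ s j ≤ 9 / 4) → (FluxData (k j) (s j) R0 (2 * C) (K / Ac) w w1 h ρ N ∧
        ∀ᵐ r, R0 < r → w r = r ^ 2 * L (G j r)) := by
    intro L hL j
    by_cases hj : 7 / 4 ≤ s j ∧ s j ≤ 9 / 4
    · have hPA := (P j).mono (heA j)
      have hPR := (P j).mono (heR j)
      obtain ⟨hm, hb⟩ := HR (lam j) (hl0 j) ((hl1 j).trans_le (heR j)) (Φ j) (Ψ j) hPR
      obtain ⟨ha1, ha2⟩ := HA (lam j) (hl0 j) ((hl1 j).trans_le (heA j)) (Φ j) (Ψ j) hPA
      have hle := hLe (Φ := Φ j) (Ψ := Ψ j) (P j).gsΦ.1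
      obtain ⟨w, w1, h, ρ, N, D, hw⟩ := fluxData_L L hL (hkn j).1 hR0 hj.1 hj.2 hC (hl0 j).le
        (hGm j) (hGr j) (P j).dyson_mem (hden (Ψ j)) (by
          filter_upwards [hle] with x hx
          exact (by positivity : (0 : ℝ) ≤ 5 * ‖dyson (Φ j) (Ψ j) 0 x‖ ^ 2).trans hx) (by
          filter_upwards [hle] with x hx
          nlinarith [sq_nonneg ‖dyson (Φ j) (Ψ j) 0 x‖]) hm (by
          filter_upwards [hb] with x hx hax
          exact hx (hR0.trans hax.le)) (fun ζ hζ hζ0 => by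
          have := hDy (hl0 j) (P j) ζ hζ hζ0
          rw [← (hkn j).2.1] at this
          simp only [hks j]
          exact this) ha1 ha2
      exact ⟨w, w1, h, ρ, N, fun _ => ⟨D.mono_C (by
        have h1 : lam j ≤ 1 := ((hl1 j).le.trans (he32 j)).trans (by norm_num)
        nlinarith), hw⟩⟩
    · exact ⟨0, 0, 0, 0, 0, fun h => absurd h hj⟩
  choose wr wr1 hr ρr Nr Dr using hflux Complex.reCLM Complex.abs_re_le_norm
  choose wi wi1 hi ρi Ni Di using hflux Complex.imCLM Complex.abs_im_le_norm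
  set κ' := κ / (4 * Real.sqrt (2 * Real.pi)) with hκ'
  have hκ'0 : 0 < κ' := by positivity
  have hclose : ∀ R, R0 < R → Tendsto (fun j => ∫ t in R..R + 1, |wr j t - w0f κ' t|) atTop (𝓝 0) := by
    intro R hR
    rw [Metric.tendsto_nhds]
    intro δ hδ
    have h1 : ∀ᶠ j in atTop, e j < Ac * (δ / 2) ^ 2 :=
      (tendsto_order.1 helim).2 _ (by positivity)
    filter_upwards [h1, hsr] with j h2 h3
    obtain ⟨D, hw⟩ := Dr j h3
    have h4 := radial_close Complex.reCLM Complex.abs_re_le_norm (fun c => by simp)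
      (κ := κ) (ε := e j) (δ := δ / 2) (by positivity) h2.le (hGm j) (hGr j) (P j).dyson_mem
      (P j).close ho (by linarith) hw hR
      (D.toIsSol.continuousOn.mono fun x hx => hR.trans_le hx.1)
    rw [Real.dist_eq, sub_zero, abs_of_nonneg (intervalIntegral.integral_nonneg (by linarith)
      fun t _ => abs_nonneg _)]
    linarith
  have hK0 : 0 ≤ K / Ac := by
    obtain ⟨j, hj⟩ := hsr.exists
    obtain ⟨D, -⟩ := Dr j hj
    refine le_trans ?_ D.hK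
    exact setIntegral_nonneg measurableSet_Ioi fun t _ => sq_nonneg _
  obtain ⟨R1, hR1, hev⟩ := two_sided_eventually (l := atTop) (k := k) (s := s) (a := R0)
    (C := 2 * C) (K := K / Ac) (κ := κ') (by positivity) hK0 hκ'0 hklim hslim
    (w := wr) (w1 := wr1) (h := hr) (ρ := ρr) (N := Nr)
    (by filter_upwards [hsr] with j hj using (Dr j hj).1) hclose
  set R := max R1 16 with hR
  have hR16 : 16 ≤ R := le_max_right _ _
  have hR1R : R1 ≤ R := le_max_left _ _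
  have hk2 : ∀ᶠ j in atTop, 2 * s j / R ≤ k j := by
    have h1 : Tendsto (fun j => 2 * s j / R) atTop (𝓝 (2 * 2 / R)) := (hslim.const_mul 2).div_const R
    have h2 : 2 * 2 / R < 1 / 2 := by
      rw [div_lt_iff₀ (by linarith)]
      linarith
    filter_upwards [h1.eventually_lt hklim h2] with j hj using hj.le
  obtain ⟨j, hj1, hj2, c1, C1, hc1, hb⟩ := (hsr.and (hk2.and hev)).exists
  obtain ⟨Dj, hwj⟩ := Dr j hj1
  obtain ⟨Ej, hvj⟩ := Di j hj1
  obtain ⟨C2, hC2⟩ := Ej.upper' (hR1.trans_le hR1R) hj2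
  refine hnot j ⟨c1, C1 + C2, R, hc1, by linarith, ?_, ?_⟩
  · filter_upwards [hGr j, ae_norm (P := fun r => R0 < r → wr j r = r ^ 2 * (G j r).re)
      (hwj.mono fun r h _ => h)] with x h1 h2 hx
    have hx1 : R1 ≤ ‖x‖ := hR1R.trans hx
    have hx0 : 0 < ‖x‖ := by linarith
    have h3 := h2 (hR1.trans_le hx1)
    have h4 := (hb ‖x‖ hx1).1
    rw [h1, norm_mul, Complex.norm_real, Real.norm_eq_abs]
    gcongr
    rw [div_le_iff₀ (by positivity)]
    have h5 := Complex.re_le_norm (G j ‖x‖)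
    rw [h3] at h4
    calc c1 * (Xf (k j) (s j) ‖x‖)⁻¹ ≤ ‖x‖ ^ 2 * (G j ‖x‖).re := h4
      _ ≤ ‖x‖ ^ 2 * ‖G j ‖x‖‖ := by gcongr
      _ = ‖G j ‖x‖‖ * ‖x‖ ^ 2 := by ring
  · filter_upwards [hGr j, ae_norm (P := fun r => R0 < r → wr j r = r ^ 2 * (G j r).re)
      (hwj.mono fun r h _ => h), ae_norm (P := fun r => R0 < r → wi j r = r ^ 2 * (G j r).im)
      (hvj.mono fun r h _ => h)] with x h1 h2 h2' hx
    have hx1 : R1 ≤ ‖x‖ := hR1R.trans hx
    have hx0 : 0 < ‖x‖ := by linarith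
    have h3 := h2 (hR1.trans_le hx1)
    have h3' := h2' (hR1.trans_le hx1)
    have h4 := (hb ‖x‖ hx1).2
    have h4' := hC2 ‖x‖ hx
    rw [h1, norm_mul, Complex.norm_real, Real.norm_eq_abs]
    gcongr
    rw [le_div_iff₀ (by positivity)]
    have h5 := Complex.norm_le_abs_re_add_abs_im (G j ‖x‖)
    rw [h3, abs_mul, abs_of_pos (by positivity : 0 < ‖x‖ ^ 2)] at h4
    rw [h3', abs_mul, abs_of_pos (by positivity : 0 < ‖x‖ ^ 2)] at h4'
    calc ‖G j ‖x‖‖ * ‖x‖ ^ 2 ≤ (|(G j ‖x‖).re| + |(G j ‖x‖).im|) * ‖x‖ ^ 2 := by gcongr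
      _ = ‖x‖ ^ 2 * |(G j ‖x‖).re| + ‖x‖ ^ 2 * |(G j ‖x‖).im| := by ring
      _ ≤ C1 * (Xf (k j) (s j) ‖x‖)⁻¹ + C2 * (Xf (k j) (s j) ‖x‖)⁻¹ := add_le_add h4 h4'
      _ = (C1 + C2) * (Xf (k j) (s j) ‖x‖)⁻¹ := by ring

end

end Vale.Agent.P363.B5
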